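import Vale.Agent.P254.EQ.Jet5c

/-!
P254 / P248, equality case (helper953), block B5: at an extremal normalised homogeneous weight the
third cumulant tensor is a product tensor.
-/

open MeasureTheory Filter Topology Matrix Asymptotics Set

namespace Vale.Agent.P254.EQ

open Vale.Agent.P254.L (Vec Mat Ten TSymm J1 J2 N3 NN)
open Vale.Agent.P254.Fr (E Mt Pg tl pt I Ev c2 c3 c4 c5 co pg_co muF AF TF KF RF Lin)

variable {n : ℕ} {w : E n → ℝ} {r C : ℝ} {y : E n}

/-- entropy of the tilt by `exp (-s|x|²/2)` of the weight `exp (-⟨y,x⟩)` on a cone -/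
noncomputable def entC (w : E n → ℝ) (y : E n) (s : ℝ) : ℝ :=
  Real.log (I w (s • 1) 0 (fun _ => 1)) + Ev w (s • 1) 0 (lf y)
    + s / 2 * Ev w (s • 1) 0 (fun x => x ⬝ᵥ x)

/-- what is known at an extremal point -/
structure Ext (w : E n → ℝ) (y : E n) : Prop where
  hb : ∀ e : E n, ∀ᶠ t in 𝓝 (0 : ℝ), Real.log (AF w 0 (t • e)).det
    ≤ 2 * (Real.log (I w 0 (t • e) (fun _ => 1)) - Real.log (I w 0 0 (fun _ => 1)))
  ha : ∀ ε : ℝ, 0 < ε → ∀ᶠ s in 𝓝[>] (0 : ℝ), entC w y 0 + (1 - ε) * s * (AF w (s • 1) 0).trace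
    ≤ entC w y s - 1 / 2 * Real.log (AF w (s • 1) 0).det
  hc : ∀ e : E n, ∀ᶠ t in 𝓝 (0 : ℝ), ∀ P : Mt n, P.PosSemidef →
    NN P (TF w 0 (t • e)) (TF w 0 (t • e)) ≤ 4 * ((AF w 0 (t • e) * P) ^ 3).trace
  hd : ∀ ε : ℝ, 0 < ε → ∀ᶠ s in 𝓝[>] (0 : ℝ), ∑ i, ∑ j, ∑ k, TF w (s • 1) 0 i j k ^ 2
    ≤ 4 * ((AF w (s • 1) 0) ^ 3).trace - (24 - ε) * s * ((AF w (s • 1) 0) ^ 4).trace

/-- `∑_{ai} K_aaii` -/
noncomputable def kap (w : E n → ℝ) : ℝ := ∑ i, ∑ k, KF w 0 0 i i k k

theorem ev_ge {p : ℝ → Prop} (h : ∀ᶠ s in 𝓝[>] (0 : ℝ), p s) (h0 : p 0) :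
    ∀ᶠ s in 𝓝[≥] (0 : ℝ), p s := by
  rw [eventually_nhdsWithin_iff] at h ⊢
  filter_upwards [h] with s hs hs0
  rcases eq_or_lt_of_le (show (0 : ℝ) ≤ s from hs0) with h1 | h1
  · rw [← h1]; exact h0
  · exact hs h1

theorem tsymm_TF (w : E n → ℝ) (B : Mt n) (c : E n) : TSymm (TF w B c) :=
  ⟨fun i j k => Fr.TF_symm1 w B c i j k, fun i j k => Fr.TF_symm2 w B c i j k⟩

theorem ksym_KF (w : E n → ℝ) (B : Mt n) (c : E n) : KSym (fun a i j k => KF w B c a i j k) :=
  ⟨fun i j k l => Fr.KF_symm1 w B c i j k l, fun i j k l => Fr.KF_symm2 w B c i j k l,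
    fun i j k l => Fr.KF_symm3 w B c i j k l⟩

theorem transpose_AF (w : E n → ℝ) (B : Mt n) (c : E n) : (AF w B c)ᵀ = AF w B c := by
  ext i j
  exact Fr.AF_symm w B c j i

/-- `∑ T_ijk²` -/
noncomputable def T2 (w : E n → ℝ) : ℝ := ∑ a, ∑ i, ∑ j, TF w 0 0 i j a ^ 2

section

variable (h : Nrm w y r C)
include h

theorem A0_apply (i j : Fin n) : AF w 0 0 i j = (1 : Mat n) i j := by rw [h.one]

/-- (a) -/
theorem ineq_a (hx : Ext w y) : 6 * (n : ℝ) ≤ kap w := by
  set S : Set ℝ := Ici 0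
  have hl : 𝓝[≥] (0 : ℝ) ≤ 𝓝 0 := nhdsWithin_le_nhds
  -- the jet of the entropy
  have j1 := J1.of_hasDerivWithinAt (sdI h.cw)
  have j2 := J1.of_hasDerivWithinAt (sd1 h.cw (pg_lf y))
  have e2 : ∀ k, c2 w 0 0 (lf y) (fun x => co k x * co k x)
      = 2 * Ev w 0 0 (fun x => co k x * co k x) := by
    intro k
    rw [Fr.c2_comm, h.hom.e2 h.cw ((Hg.co k).mul (Hg.co k))]
    norm_num
  simp only [e2, ← Finset.mul_sum, h.sum_sq] at j1 j2
  have pq : Pg (fun x : E n => x ⬝ᵥ x) := by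
    have := Pg.quad (n := n) 1
    simpa only [Matrix.one_mulVec] using this
  have j3 := J1.of_hasDerivWithinAt (sd1 h.cw pq)
  have j4 : J1 (𝓝[≥] 0) (fun s : ℝ => s / 2) 0 (1 / 2) := by
    refine (J1.id.mul_const (1 / 2)).congr (Eventually.of_forall fun t => ?_) ?_ ?_
    · show t * (1 / 2) = t / 2
      ring
    · ring
    · ring
  have j5 := j4.mul hl j3
  have e5 : Ev w ((0 : ℝ) • 1) 0 (fun x : E n => x ⬝ᵥ x) = 2 * n := by
    rw [zero_smul, ← h.sum_sq]
    have e6 : (fun x : E n => x ⬝ᵥ x) = fun x => x ⬝ᵥ (1 : Mt n) *ᵥ x := by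
      simp only [Matrix.one_mulVec]
    rw [e6, (lin_Ev h.cw (ad_zero h.cw.a_pos)).quad]
    refine Finset.sum_congr rfl fun k _ => ?_
    rw [Finset.sum_eq_single k]
    · rw [Matrix.one_apply_eq, one_mul]
      rfl
    · intro l _ hl; rw [Matrix.one_apply_ne (Ne.symm hl), zero_mul]
    · intro h; exact absurd (Finset.mem_univ _) h
  have jE : J1 (𝓝[≥] 0) (entC w y) (entC w y 0) (-(2 * n)) := by
    refine ((j1.add j2).add j5).congr (Eventually.of_forall fun t => rfl) ?_ ?_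
    · unfold entC; ring
    · rw [e5]; ring
  -- the jet of `log det`
  have hA0 : AF w ((0 : ℝ) • 1) 0 = 1 := by rw [zero_smul, h.one]
  have jD := logdet_jet1 (A := fun s => AF w (s • 1) 0)
    (X := Matrix.of fun i j => -(1 / 2) * ∑ k, KF w 0 0 i j k k - 3 * (1 : Mat n) i j) hA0
    (fun i j => h.sA i j)
  have eX : (Matrix.of fun i j => -(1 / 2) * ∑ k, KF w 0 0 i j k k - 3 * (1 : Mat n) i j).trace
      = -(1 / 2) * kap w - 3 * n := by
    unfold kap
    rw [Matrix.trace]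
    simp only [diag_apply, of_apply, Matrix.one_apply_eq]
    rw [Finset.sum_sub_distrib, ← Finset.mul_sum]
    simp
    ring
  rw [eX] at jD
  -- the jet of the trace
  have jA : J1 (𝓝[≥] 0) (fun s : ℝ => (AF w (s • 1) 0).trace) (AF w ((0:ℝ) • 1) 0).trace _ :=
    J1_trace fun i j => J1.of_hasDerivWithinAt (h.sA i j)
  have key : ∀ ε : ℝ, 0 < ε → (1 - ε) * n + n / 2 - kap w / 4 ≤ 0 := by
    intro ε hε
    have jT := ((J1.id (l := 𝓝[≥] (0 : ℝ))).mul hl jA).const_mul (1 - ε)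
    have jf := ((jT.sub jE).add (jD.const_mul (1 / 2)))
    have hle : ∀ᶠ s in 𝓝[≥] (0 : ℝ), (1 - ε) * (s * (AF w (s • 1) 0).trace) - entC w y s
        + 1 / 2 * Real.log (AF w (s • 1) 0).det
        ≤ (1 - ε) * (0 * (AF w ((0 : ℝ) • 1) 0).trace) - entC w y 0 + 1 / 2 * 0 := by
      refine ev_ge ?_ ?_
      · filter_upwards [hx.ha ε hε] with s hs
        linarith
      · rw [hA0, Matrix.det_one, Real.log_one]
    have := jf.le_test hle
    rw [hA0] at this
    simp only [Matrix.trace_one, Fintype.card_fin, zero_mul, zero_add, one_mul] at this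
    linarith
  have h1 : n + (n : ℝ) / 2 ≤ kap w / 4 := by
    refine le_of_forall_pos_le_add fun δ hδ => ?_
    have h2 := key (δ / (n + 1)) (by positivity)
    have h3 : δ / (n + 1) * n ≤ δ := by
      rw [div_mul_eq_mul_div, div_le_iff₀ (by positivity)]
      nlinarith [Nat.cast_nonneg (α := ℝ) n]
    nlinarith
  linarith

theorem trace_AF0_one : (AF w 0 0).trace = n := by
  rw [h.one, Matrix.trace_one, Fintype.card_fin]

/-- (b) -/
theorem ineq_b (hx : Ext w y) : kap w ≤ T2 w + 2 * n := by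
  have hs : ∀ a : Fin n, 1 / 2 * ∑ i, KF w 0 0 i i a a - 1 / 2 * ∑ i, ∑ j, TF w 0 0 i j a ^ 2
      - 1 ≤ 0 := by
    intro a
    have jD := logdet_jet2 (A := fun t => AF w 0 (t • ei a))
      (X := Matrix.of fun i j => TF w 0 0 i j a) (Y := Matrix.of fun i j => KF w 0 0 i j a a / 2)
      (Eventually.of_forall fun t => transpose_AF w 0 _)
      (fun i j => (jA h.cw a i j).congr_coef (A0_apply h i j) rfl rfl)
    have jI := (jI h.cw a).const_mul 2
    have jf := jD.sub jI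
    have hle : ∀ᶠ t in 𝓝 (0 : ℝ), Real.log (AF w 0 (t • ei a)).det
        - 2 * Real.log (I w 0 (t • ei a) (fun _ => 1))
        ≤ 0 - 2 * Real.log (I w 0 0 (fun _ => 1)) := by
      filter_upwards [hx.hb (ei a)] with t ht
      linarith
    have h2 := (jf.le_test hle).2
    have e1 : (Matrix.of fun i j => KF w 0 0 i j a a / 2 : Mat n).trace
        = 1 / 2 * ∑ i, KF w 0 0 i i a a := by
      rw [Matrix.trace, Finset.mul_sum]
      exact Finset.sum_congr rfl fun i _ => by rw [diag_apply, of_apply]; ring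
    have e2 : ∑ i, ∑ j, (Matrix.of fun i j => TF w 0 0 i j a : Mat n) i j
        * (Matrix.of fun i j => TF w 0 0 i j a : Mat n) j i = ∑ i, ∑ j, TF w 0 0 i j a ^ 2 := by
      refine Finset.sum_congr rfl fun i _ => Finset.sum_congr rfl fun j _ => ?_
      rw [of_apply, of_apply, Fr.TF_symm1 w 0 0 j i a]
      ring
    rw [e1, e2, A0_apply h, Matrix.one_apply_eq] at h2
    linarith
  have h3 := Finset.sum_nonpos fun a (_ : a ∈ Finset.univ) => hs a
  simp only [Finset.sum_sub_distrib, ← Finset.mul_sum] at h3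
  have e1 : ∑ a, ∑ i, KF w 0 0 i i a a = kap w := by
    unfold kap
    exact Finset.sum_comm
  rw [e1] at h3
  simp only [Finset.sum_const, Finset.card_univ, Fintype.card_fin, nsmul_eq_mul, mul_one] at h3
  unfold T2
  linarith

omit h in
theorem T2_eq_N3 : T2 w = N3 1 1 1 (TF w 0 0) (TF w 0 0) := by
  rw [N3_one]
  unfold T2
  rw [Finset.sum_comm]
  refine Finset.sum_congr rfl fun i _ => ?_
  rw [Finset.sum_comm]
  exact Finset.sum_congr rfl fun j _ => Finset.sum_congr rfl fun k _ => pow_two _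

theorem hc0 (hx : Ext w y) {P : Mt n} (hP : P.PosSemidef) :
    NN P (TF w 0 0) (TF w 0 0) ≤ 4 * (P ^ 3).trace := by
  have h1 := (hx.hc 0).self_of_nhds P hP
  rw [zero_smul, h.one, Matrix.one_mul] at h1
  exact h1

/-- `|T|² = 4 n` -/
theorem T2_eq (hx : Ext w y) : T2 w = 4 * n := by
  refine le_antisymm ?_ ?_
  · have h1 := hc0 h hx (P := 1) Matrix.PosSemidef.one
    rw [one_pow, Matrix.trace_one, Fintype.card_fin] at h1
    rw [T2_eq_N3]
    exact h1
  · have h1 := ineq_a h hx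
    have h2 := ineq_b h hx
    linarith

omit h in
theorem J2_lin {l : Filter ℝ} (X : Mat n) (i j : Fin n) :
    J2 l (fun t : ℝ => (1 + t • X) i j) ((1 : Mat n) i j) (X i j) ((0 : Mat n) i j) := by
  refine ((J2.const ((1 : Mat n) i j)).add (J2.id.mul_const (X i j))).congr
    (Eventually.of_forall fun t => ?_) ?_ ?_ ?_
  · show (1 : Mat n) i j + t * X i j = (1 + t • X) i j
    rw [Matrix.add_apply, Matrix.smul_apply, smul_eq_mul]
  · ring
  · ring
  · rw [Matrix.zero_apply]; ring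

omit h in
theorem psd_lin {X : Mat n} (hX : Xᵀ = X) : ∀ᶠ t in 𝓝 (0 : ℝ), (1 + t • X : Mat n).PosSemidef := by
  have h1 : ∀ᶠ t in 𝓝 (0 : ℝ), (1 + t • X : Mat n).PosDef := by
    refine posDef_ev (Eventually.of_forall fun t => ?_) fun i j =>
      (J2_lin X i j).tendsto le_rfl
    rw [Matrix.transpose_add, Matrix.transpose_one, Matrix.transpose_smul, hX]
  filter_upwards [h1] with t ht
  exact ht.posSemidef

/-- first variation in `P` -/
theorem MM_eq (hx : Ext w y) (a b : Fin n) :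
    MM (TF w 0 0) a b = if a = b then 4 else 0 := by
  have hlin : ∀ X : Mat n, Xᵀ = X → ∑ a, ∑ b, X a b * MM (TF w 0 0) a b = 4 * X.trace := by
    intro X hX
    have j1 := J2_NN le_rfl X (U := fun _ => TF w 0 0) (U0 := TF w 0 0) (U1 := fun _ _ _ => 0)
      (U2 := fun _ _ _ => 0) (fun _ => tsymm_TF w 0 0) (fun i j k => J2.const _)
    have j2 := (J2_cube le_rfl (J2_lin (l := 𝓝 0) X)).const_mul 4
    have hle : ∀ᶠ t in 𝓝 (0 : ℝ), NN (1 + t • X) (TF w 0 0) (TF w 0 0)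
        - 4 * ((1 + t • X) ^ 3).trace ≤ N3 1 1 1 (TF w 0 0) (TF w 0 0) - 4 * n := by
      filter_upwards [psd_lin hX] with t ht
      have h1 := hc0 h hx ht
      rw [← T2_eq_N3, T2_eq h hx]
      linarith
    have h2 := ((j1.sub j2).le_test hle).1
    have z1 : N3 1 1 1 (TF w 0 0) (fun _ _ _ => 0) = 0 := by rw [N3_one]; simp
    have z2 : N3 1 1 1 (fun _ _ _ => 0) (TF w 0 0) = 0 := by rw [N3_one]; simp
    rw [z1, z2, N3_X1_MM] at h2
    linarith
  have h1 := hlin (Matrix.single a b 1 + Matrix.single b a 1) (by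
    rw [Matrix.transpose_add, Matrix.transpose_single, Matrix.transpose_single, add_comm])
  have e1 : ∀ a b : Fin n, ∑ i, ∑ j, (Matrix.single a b (1 : ℝ)) i j * MM (TF w 0 0) i j
      = MM (TF w 0 0) a b := by
    intro a b
    rw [Finset.sum_eq_single a, Finset.sum_eq_single b]
    · rw [Matrix.single_apply_same, one_mul]
    · intro j _ hj
      have h0 : (Matrix.single a b (1 : ℝ)) a j = 0 := by simp [Matrix.single, Ne.symm hj]
      rw [h0, zero_mul]
    · intro hb; exact absurd (Finset.mem_univ _) hb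
    · intro i _ hi
      refine Finset.sum_eq_zero fun j _ => ?_
      have h0 : (Matrix.single a b (1 : ℝ)) i j = 0 := by simp [Matrix.single, Ne.symm hi]
      rw [h0, zero_mul]
    · intro hb; exact absurd (Finset.mem_univ _) hb
  have e2 : ∑ i, ∑ j, (Matrix.single a b (1 : ℝ) + Matrix.single b a 1 : Mat n) i j
      * MM (TF w 0 0) i j = MM (TF w 0 0) a b + MM (TF w 0 0) b a := by
    rw [← e1 a b, ← e1 b a, ← Finset.sum_add_distrib]
    refine Finset.sum_congr rfl fun i _ => ?_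
    rw [← Finset.sum_add_distrib]
    exact Finset.sum_congr rfl fun j _ => by rw [Matrix.add_apply, add_mul]
  have e3 : MM (TF w 0 0) b a = MM (TF w 0 0) a b := by
    unfold MM
    exact Finset.sum_congr rfl fun i _ => Finset.sum_congr rfl fun j _ => mul_comm _ _
  rw [e2, e3, Matrix.trace_add] at h1
  split_ifs with hab
  · subst hab
    rw [Matrix.trace_single_eq_same] at h1
    linarith
  · rw [Matrix.trace_single_eq_of_ne _ _ _ hab, Matrix.trace_single_eq_of_ne _ _ _ (Ne.symm hab)]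
      at h1
    linarith

/-- `⟨T, ∑_a R_aa⟩` -/
noncomputable def RT (w : E n → ℝ) : ℝ :=
  ∑ a, ∑ i, ∑ j, ∑ k, TF w 0 0 i j k * RF w 0 0 i j k a a

/-- (c), second order -/
theorem ineq_c (hx : Ext w y) :
    K2 (fun a i j k => KF w 0 0 a i j k) + RT w - 3 * S1 (fun a i j k => KF w 0 0 a i j k)
      (TF w 0 0) + 3 / 4 * c4t (TF w 0 0) - 6 * kap w + 3 * (4 * n) ≤ 0 := by
  set T := TF w 0 0 with hTdef
  have hT : TSymm T := tsymm_TF w 0 0
  have hs : ∀ a : Fin n, (∑ i, ∑ j, ∑ k, KF w 0 0 a i j k ^ 2)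
      + (∑ i, ∑ j, ∑ k, TF w 0 0 i j k * RF w 0 0 i j k a a)
      - 3 * N3 (slc T a) 1 1 (fun i j k => KF w 0 0 a i j k) T
      + 3 / 4 * N3 (slc T a) (slc T a) 1 T T
      - 6 * (∑ i, KF w 0 0 i i a a) + 3 * ∑ i, ∑ j, TF w 0 0 i j a ^ 2 ≤ 0 := by
    intro a
    set X : Mat n := (-(1 / 2) : ℝ) • slc T a with hX
    have hsl : (slc T a)ᵀ = slc T a := slc_symm hT a
    have hXs : Xᵀ = X := by rw [hX, Matrix.transpose_smul, hsl]
    have hK4 : ∀ i j k, KF w 0 0 i j k a = KF w 0 0 a i j k := by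
      intro i j k
      rw [Fr.KF_symm3 w 0 0 i j k a, Fr.KF_symm2 w 0 0 i j a k, Fr.KF_symm1 w 0 0 i a j k]
    have j1 := J2_NN le_rfl X (U := fun t => TF w 0 (t • ei a)) (U0 := T)
      (U1 := fun i j k => KF w 0 0 a i j k) (U2 := fun i j k => RF w 0 0 i j k a a / 2)
      (fun t => tsymm_TF w 0 _)
      (fun i j k => (jT h.cw a i j k).congr_coef rfl (hK4 i j k) rfl)
    have jM := J2_mul le_rfl (A := fun t => AF w 0 (t • ei a)) (B := fun t => 1 + t • X)
      (A0 := 1) (A1 := slc T a) (A2 := Matrix.of fun i j => KF w 0 0 i j a a / 2)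
      (B0 := 1) (B1 := X) (B2 := 0)
      (fun i j => (jA h.cw a i j).congr_coef (A0_apply h i j) (by
        show TF w 0 0 i j a = TF w 0 0 a i j
        rw [Fr.TF_symm2, Fr.TF_symm1]) rfl)
      (fun i j => J2_lin X i j)
    have jC := (J2_cube (M := fun t => AF w 0 (t • ei a) * (1 + t • X)) le_rfl
      (X := (1 / 2 : ℝ) • slc T a)
      (Y := (1 / 2 : ℝ) • (Matrix.of fun i j => KF w 0 0 i j a a)
        - (1 / 2 : ℝ) • (slc T a * slc T a))
      (fun i j => (jM i j).congr_coef (by rw [Matrix.mul_one]) (by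
        rw [Matrix.one_mul, Matrix.mul_one, hX]
        simp only [Matrix.add_apply, Matrix.smul_apply, smul_eq_mul]
        ring) (by
        rw [Matrix.mul_zero, Matrix.mul_one, hX, Matrix.mul_smul]
        simp only [Matrix.add_apply, Matrix.sub_apply, Matrix.smul_apply, smul_eq_mul,
          Matrix.zero_apply, of_apply]
        ring))).const_mul 4
    have hle : ∀ᶠ t in 𝓝 (0 : ℝ), NN (1 + t • X) (TF w 0 (t • ei a)) (TF w 0 (t • ei a))
        - 4 * ((AF w 0 (t • ei a) * (1 + t • X)) ^ 3).trace ≤ N3 1 1 1 T T - 4 * n := by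
      filter_upwards [psd_lin hXs, hx.hc (ei a)] with t ht h2
      have h1 := h2 _ ht
      rw [hTdef, ← T2_eq_N3, T2_eq h hx]
      linarith
    have h2 := ((j1.sub jC).le_test hle).2
    -- rewrite the terms
    have q1 : N3 1 1 1 T (fun i j k => RF w 0 0 i j k a a / 2)
        = 1 / 2 * ∑ i, ∑ j, ∑ k, TF w 0 0 i j k * RF w 0 0 i j k a a := by
      rw [N3_one]
      simp only [Finset.mul_sum]
      exact Finset.sum_congr rfl fun i _ => Finset.sum_congr rfl fun j _ =>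
        Finset.sum_congr rfl fun k _ => by ring
    have q2 : N3 1 1 1 (fun i j k => RF w 0 0 i j k a a / 2) T
        = 1 / 2 * ∑ i, ∑ j, ∑ k, TF w 0 0 i j k * RF w 0 0 i j k a a := by
      rw [N3_one]
      simp only [Finset.mul_sum]
      exact Finset.sum_congr rfl fun i _ => Finset.sum_congr rfl fun j _ =>
        Finset.sum_congr rfl fun k _ => by ring
    have q3 : N3 1 1 1 (fun i j k => KF w 0 0 a i j k) (fun i j k => KF w 0 0 a i j k)
        = ∑ i, ∑ j, ∑ k, KF w 0 0 a i j k ^ 2 := by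
      rw [N3_one]
      exact Finset.sum_congr rfl fun i _ => Finset.sum_congr rfl fun j _ =>
        Finset.sum_congr rfl fun k _ => by ring
    have q4 : N3 X 1 1 T (fun i j k => KF w 0 0 a i j k)
        = -(1 / 2) * N3 (slc T a) 1 1 (fun i j k => KF w 0 0 a i j k) T := by
      rw [N3_X1_symm hXs, hX, MP.contactP_smul1]
    have q5 : N3 X 1 1 (fun i j k => KF w 0 0 a i j k) T
        = -(1 / 2) * N3 (slc T a) 1 1 (fun i j k => KF w 0 0 a i j k) T := by
      rw [hX, MP.contactP_smul1]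
    have q6 : N3 X X 1 T T = 1 / 4 * N3 (slc T a) (slc T a) 1 T T := by
      rw [hX, MP.contactP_smul1, MP.contactP_smul2 _ _ _ _ hT]
      ring
    have q7 : (slc T a * slc T a).trace = ∑ i, ∑ j, TF w 0 0 i j a ^ 2 := by
      rw [Matrix.trace]
      refine Finset.sum_congr rfl fun i _ => ?_
      rw [diag_apply, Matrix.mul_apply]
      refine Finset.sum_congr rfl fun j _ => ?_
      simp only [slc, of_apply]
      rw [hT.2 a j i, hT.1 a i j, hT.2 i a j]
      ring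
    have q8 : (Matrix.of fun i j => KF w 0 0 i j a a : Mat n).trace = ∑ i, KF w 0 0 i i a a := rfl
    rw [q1, q2, q3, q4, q5, q6] at h2
    simp only [Matrix.trace_sub, Matrix.trace_smul, smul_eq_mul, Matrix.smul_mul, Matrix.mul_smul,
      q7, q8] at h2
    linarith
  have h3 := Finset.sum_nonpos fun a (_ : a ∈ Finset.univ) => hs a
  simp only [Finset.sum_sub_distrib, Finset.sum_add_distrib, ← Finset.mul_sum] at h3
  have e1 : ∑ a, ∑ i, KF w 0 0 i i a a = kap w := by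
    unfold kap
    exact Finset.sum_comm
  have e2 : ∑ a, ∑ i, ∑ j, TF w 0 0 i j a ^ 2 = 4 * n := T2_eq h hx
  have e3 := sum_N3_S1 hT (K := fun a i j k => KF w 0 0 a i j k)
  have e4 := sum_N3_c4 hT
  rw [e1, e2, e3, e4] at h3
  exact h3

/-- (d) -/
theorem ineq_d (hx : Ext w y) : -RT w - 12 * (4 * n) + 6 * kap w + 60 * n ≤ 0 := by
  have hl : 𝓝[≥] (0 : ℝ) ≤ 𝓝 0 := nhdsWithin_le_nhds
  have hA0 : AF w ((0 : ℝ) • 1) 0 = 1 := by rw [zero_smul, h.one]
  have hT0 : TF w ((0 : ℝ) • 1) 0 = TF w 0 0 := by rw [zero_smul]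
  have jT : J1 (𝓝[≥] 0) (fun s : ℝ => ∑ i, ∑ j, ∑ k, TF w (s • 1) 0 i j k * TF w (s • 1) 0 i j k)
      _ _ := J1.sum Finset.univ fun i _ => J1.sum Finset.univ fun j _ =>
        J1.sum Finset.univ fun k _ => (J1.of_hasDerivWithinAt (h.sT i j k)).mul hl
          (J1.of_hasDerivWithinAt (h.sT i j k))
  have jA : ∀ i j, J1 (𝓝[≥] 0) (fun s : ℝ => AF w (s • 1) 0 i j) ((1 : Mat n) i j)
      ((Matrix.of fun i j => -(1 / 2) * ∑ k, KF w 0 0 i j k k - 3 * (1 : Mat n) i j) i j) :=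
    fun i j => (J1.of_hasDerivWithinAt (h.sA i j)).congr_coef (by rw [hA0]) rfl
  have j3 := J1_pow3 hl jA
  have j4 := (J1.id (l := 𝓝[≥] (0 : ℝ))).mul hl (J1_pow4 hl jA)
  have eX : (Matrix.of fun i j => -(1 / 2) * ∑ k, KF w 0 0 i j k k - 3 * (1 : Mat n) i j).trace
      = -(1 / 2) * kap w - 3 * n := by
    unfold kap
    rw [Matrix.trace]
    simp only [diag_apply, of_apply, Matrix.one_apply_eq]
    rw [Finset.sum_sub_distrib, ← Finset.mul_sum]
    simp
    ring
  rw [eX] at j3 j4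
  have e0 : ∑ i, ∑ j, ∑ k, TF w 0 0 i j k * TF w 0 0 i j k = 4 * n := by
    rw [← T2_eq h hx, T2_eq_N3, N3_one]
  have e1 : ∑ i, ∑ j, ∑ k, (TF w ((0 : ℝ) • 1) 0 i j k * (-(1 / 2) * ∑ l, RF w 0 0 i j k l l
        - 6 * TF w 0 0 i j k)
      + (-(1 / 2) * ∑ l, RF w 0 0 i j k l l - 6 * TF w 0 0 i j k) * TF w ((0 : ℝ) • 1) 0 i j k)
      = -RT w - 12 * (4 * n) := by
    have e2 : RT w = ∑ i, ∑ j, ∑ k, TF w 0 0 i j k * ∑ l, RF w 0 0 i j k l l := by
      unfold RT
      rw [Finset.sum_comm]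
      refine Finset.sum_congr rfl fun i _ => ?_
      rw [Finset.sum_comm]
      refine Finset.sum_congr rfl fun j _ => ?_
      rw [Finset.sum_comm]
      exact Finset.sum_congr rfl fun k _ => (Finset.mul_sum _ _ _).symm
    rw [e2, ← e0, hT0]
    simp only [Finset.mul_sum, ← Finset.sum_neg_distrib, ← Finset.sum_sub_distrib]
    refine Finset.sum_congr rfl fun i _ => Finset.sum_congr rfl fun j _ =>
      Finset.sum_congr rfl fun k _ => ?_
    rw [← Finset.mul_sum, Finset.sum_neg_distrib, ← Finset.mul_sum]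
    ring
  have key : ∀ ε : ℝ, 0 < ε → -RT w - 12 * (4 * n) + 6 * kap w + (60 - ε) * n ≤ 0 := by
    intro ε hε
    have jf := (jT.sub (j3.const_mul 4)).add (j4.const_mul (24 - ε))
    have hle : ∀ᶠ s in 𝓝[≥] (0 : ℝ),
        ∑ i, ∑ j, ∑ k, TF w (s • 1) 0 i j k * TF w (s • 1) 0 i j k
        - 4 * ((AF w (s • 1) 0) ^ 3).trace + (24 - ε) * (s * ((AF w (s • 1) 0) ^ 4).trace)
        ≤ ∑ i, ∑ j, ∑ k, TF w ((0 : ℝ) • 1) 0 i j k * TF w ((0 : ℝ) • 1) 0 i j k
          - 4 * n + (24 - ε) * (0 * n) := by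
      rw [hT0, e0]
      refine ev_ge ?_ ?_
      · filter_upwards [hx.hd ε hε] with s hs
        simp only [← pow_two]
        linarith
      · rw [hT0, e0, hA0, one_pow, Matrix.trace_one, Fintype.card_fin]
        linarith
    have h2 := jf.le_test hle
    rw [e1] at h2
    linarith
  have h1 : -RT w - 12 * (4 * n) + 6 * kap w + 60 * n ≤ 0 := by
    refine le_of_forall_pos_le_add fun δ hδ => ?_
    have h2 := key (δ / (n + 1)) (by positivity)
    have h3 : δ / (n + 1) * n ≤ δ := by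
      rw [div_mul_eq_mul_div, div_le_iff₀ (by positivity)]
      nlinarith [Nat.cast_nonneg (α := ℝ) n]
    linarith
  exact h1

/-- **B5**: at an extremal point the third cumulant is a product tensor -/
theorem product (hx : Ext w y) : 16 * (n : ℝ) ≤ c4t (TF w 0 0) :=
  alg5 (tsymm_TF w 0 0) (ksym_KF w 0 0) (MM_eq h hx) (ineq_c h hx) (ineq_d h hx)

end

end Vale.Agent.P254.EQ
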