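import Vale.Agent.P254.EQ.Comm

/-!
P254 / P248, equality case (helper953), block B5 (algebra): the inequalities between the cumulants at
an extremal point give `16 N ≤ c4t T`.
-/

namespace Vale.Agent.P254.EQ

open Matrix Finset
open Vale.Agent.P254.L (Vec Mat Ten TSymm)

variable {N : ℕ}

/-- symmetry of a four tensor -/
def KSym (K : Fin N → Ten N) : Prop :=
  (∀ i j k l, K i j k l = K j i k l) ∧ (∀ i j k l, K i j k l = K i k j l) ∧
    (∀ i j k l, K i j k l = K i j l k)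

/-- pair contraction -/
def PC (T : Ten N) (a i j k : Fin N) : ℝ := ∑ l, T a i l * T l j k

theorem PC_swap34 {T : Ten N} (hT : TSymm T) (a i j k : Fin N) : PC T a i j k = PC T a i k j := by
  unfold PC
  exact sum_congr rfl fun l _ => by rw [hT.2 l j k]

theorem PC_swap12 {T : Ten N} (hT : TSymm T) (a i j k : Fin N) : PC T a i j k = PC T i a j k := by
  unfold PC
  exact sum_congr rfl fun l _ => by rw [hT.1 a i l]

theorem PC_swapp {T : Ten N} (hT : TSymm T) (a i j k : Fin N) : PC T a i j k = PC T j k a i := by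
  unfold PC
  refine sum_congr rfl fun l _ => ?_
  rw [hT.2 j k l, hT.1 j l k, hT.2 a i l, hT.1 a l i, hT.2 l j k]
  rw [hT.2 l k j]
  ring

/-- `∑_{jk} T_ajk T_bjk` -/
def MM (T : Ten N) (a b : Fin N) : ℝ := ∑ j, ∑ k, T a j k * T b j k

theorem sum4_rot (f : Fin N → Fin N → Fin N → Fin N → ℝ) :
    ∑ a, ∑ b, ∑ c, ∑ d, f a b c d = ∑ c, ∑ d, ∑ a, ∑ b, f a b c d := by
  calc ∑ a, ∑ b, ∑ c, ∑ d, f a b c d = ∑ a, ∑ c, ∑ b, ∑ d, f a b c d :=
        sum_congr rfl fun a _ => sum_comm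
    _ = ∑ c, ∑ a, ∑ b, ∑ d, f a b c d := sum_comm
    _ = ∑ c, ∑ a, ∑ d, ∑ b, f a b c d :=
        sum_congr rfl fun c _ => sum_congr rfl fun a _ => sum_comm
    _ = ∑ c, ∑ d, ∑ a, ∑ b, f a b c d := sum_congr rfl fun c _ => sum_comm

theorem sum_PC_sq {T : Ten N} (hT : TSymm T)
    (hM : ∀ a b, MM T a b = if a = b then 4 else 0) :
    ∑ a, ∑ i, ∑ j, ∑ k, PC T a i j k * PC T a i j k = 16 * N := by
  have e : ∀ a i, ∑ j, ∑ k, PC T a i j k * PC T a i j k
      = ∑ l, ∑ m, (T a i l * T a i m) * MM T l m := by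
    intro a i
    calc ∑ j, ∑ k, PC T a i j k * PC T a i j k
        = ∑ j, ∑ k, ∑ l, ∑ m, (T a i l * T l j k) * (T a i m * T m j k) :=
          sum_congr rfl fun j _ => sum_congr rfl fun k _ => by
            unfold PC
            rw [Finset.sum_mul_sum]
      _ = ∑ l, ∑ m, ∑ j, ∑ k, (T a i l * T l j k) * (T a i m * T m j k) := sum4_rot _
      _ = _ := by
          refine sum_congr rfl fun l _ => sum_congr rfl fun m _ => ?_
          unfold MM
          rw [Finset.mul_sum]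
          refine sum_congr rfl fun j _ => ?_
          rw [Finset.mul_sum]
          exact sum_congr rfl fun k _ => by ring
  calc ∑ a, ∑ i, ∑ j, ∑ k, PC T a i j k * PC T a i j k
      = ∑ a, ∑ i, ∑ l, ∑ m, (T a i l * T a i m) * MM T l m :=
        sum_congr rfl fun a _ => sum_congr rfl fun i _ => e a i
    _ = ∑ l, ∑ m, ∑ a, ∑ i, (T a i l * T a i m) * MM T l m := sum4_rot _
    _ = ∑ l, ∑ m, MM T l m * MM T l m := by
        refine sum_congr rfl fun l _ => sum_congr rfl fun m _ => ?_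
        have h : MM T l m = ∑ a, ∑ i, T a i l * T a i m := by
          unfold MM
          refine sum_congr rfl fun a _ => sum_congr rfl fun i _ => ?_
          rw [hT.1 l a i, hT.2 a l i, hT.1 m a i, hT.2 a m i]
        conv_rhs => lhs; rw [h]
        rw [Finset.sum_mul]
        exact sum_congr rfl fun a _ => (Finset.sum_mul _ _ _).symm
    _ = ∑ l : Fin N, ∑ m : Fin N, (if l = m then (16 : ℝ) else 0) := by
        refine sum_congr rfl fun l _ => sum_congr rfl fun m _ => ?_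
        rw [hM]
        split_ifs <;> norm_num
    _ = 16 * N := by
        simp
        ring

theorem slc_mul {T : Ten N} (hT : TSymm T) (a k i j : Fin N) :
    (slc T a * slc T k) i j = PC T a i j k := by
  rw [Matrix.mul_apply]
  unfold PC slc
  refine sum_congr rfl fun l _ => ?_
  simp only [of_apply]
  rw [hT.1 k l j, hT.2 l k j]

theorem sum_PC_cross {T : Ten N} (hT : TSymm T) :
    ∑ a, ∑ i, ∑ j, ∑ k, PC T a i j k * PC T a j i k = c4t T := by
  unfold c4t
  refine sum_congr rfl fun a _ => ?_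
  have h2 : ∀ k, (slc T a * slc T k * slc T a * slc T k).trace
      = ∑ i, ∑ j, PC T a i j k * PC T a j i k := by
    intro k
    rw [Matrix.mul_assoc (slc T a * slc T k), Matrix.trace]
    refine sum_congr rfl fun i _ => ?_
    rw [diag_apply, Matrix.mul_apply]
    exact sum_congr rfl fun j _ => by rw [slc_mul hT, slc_mul hT]
  calc ∑ i, ∑ j, ∑ k, PC T a i j k * PC T a j i k
      = ∑ i, ∑ k, ∑ j, PC T a i j k * PC T a j i k := sum_congr rfl fun i _ => sum_comm
    _ = ∑ k, ∑ i, ∑ j, PC T a i j k * PC T a j i k := sum_comm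
    _ = _ := sum_congr rfl fun k _ => (h2 k).symm

/-- `∑ K_aijk (∑_l T_ail T_ljk)` -/
def S1 (K : Fin N → Ten N) (T : Ten N) : ℝ := ∑ a, ∑ i, ∑ j, ∑ k, K a i j k * PC T a i j k

/-- squared norm of a four tensor -/
def K2 (K : Fin N → Ten N) : ℝ := ∑ a, ∑ i, ∑ j, ∑ k, K a i j k ^ 2

/-- the elementary inequality -/
theorem K_ineq {T : Ten N} (hT : TSymm T) {K : Fin N → Ten N} (hK : KSym K)
    (hM : ∀ a b, MM T a b = if a = b then 4 else 0) :
    0 ≤ K2 K - 3 * S1 K T + 12 * N + 3 / 2 * c4t T := by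
  -- swapping two of the last three indices
  have sw : ∀ f : Fin N → Fin N → Fin N → Fin N → ℝ, ∑ a, ∑ i, ∑ j, ∑ k, f a i j k
      = ∑ a, ∑ i, ∑ j, ∑ k, f a j i k := fun f => sum_congr rfl fun a _ => by
    rw [Finset.sum_comm]
  have sw' : ∀ f : Fin N → Fin N → Fin N → Fin N → ℝ, ∑ a, ∑ i, ∑ j, ∑ k, f a i j k
      = ∑ a, ∑ i, ∑ j, ∑ k, f a i k j := fun f => sum_congr rfl fun a _ =>
    sum_congr rfl fun i _ => by rw [Finset.sum_comm]
  have q1 : ∑ a, ∑ i, ∑ j, ∑ k, K a i j k * PC T a j i k = S1 K T := by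
    rw [sw]
    unfold S1
    refine sum_congr rfl fun a _ => sum_congr rfl fun i _ => sum_congr rfl fun j _ =>
      sum_congr rfl fun k _ => ?_
    rw [hK.2.1 a j i k]
  have q2 : ∑ a, ∑ i, ∑ j, ∑ k, K a i j k * PC T a k i j = S1 K T := by
    rw [sw', sw]
    unfold S1
    refine sum_congr rfl fun a _ => sum_congr rfl fun i _ => sum_congr rfl fun j _ =>
      sum_congr rfl fun k _ => ?_
    rw [hK.2.2 a j k i, hK.2.1 a j i k]
  have p11 := sum_PC_sq hT hM
  have p22 : ∑ a, ∑ i, ∑ j, ∑ k, PC T a j i k * PC T a j i k = 16 * N := by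
    rw [sw]; exact p11
  have p33 : ∑ a, ∑ i, ∑ j, ∑ k, PC T a k i j * PC T a k i j = 16 * N := by
    rw [sw', sw]
    exact p11
  have p12 := sum_PC_cross hT
  have p13 : ∑ a, ∑ i, ∑ j, ∑ k, PC T a i j k * PC T a k i j = c4t T := by
    rw [sw', ← p12]
    refine sum_congr rfl fun a _ => sum_congr rfl fun i _ => sum_congr rfl fun j _ =>
      sum_congr rfl fun k _ => ?_
    rw [PC_swap34 hT a i k j]
  have p23 : ∑ a, ∑ i, ∑ j, ∑ k, PC T a j i k * PC T a k i j = c4t T := by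
    rw [sw, sw', ← p12]
    refine sum_congr rfl fun a _ => sum_congr rfl fun i _ => sum_congr rfl fun j _ =>
      sum_congr rfl fun k _ => ?_
    rw [PC_swap34 hT a i k j, PC_swap34 hT a j k i]
  have key : 0 ≤ ∑ a, ∑ i, ∑ j, ∑ k,
      (K a i j k - 1 / 2 * (PC T a i j k + PC T a j i k + PC T a k i j)) ^ 2 :=
    sum_nonneg fun a _ => sum_nonneg fun i _ => sum_nonneg fun j _ => sum_nonneg fun k _ =>
      sq_nonneg _
  have expand : ∑ a, ∑ i, ∑ j, ∑ k,
      (K a i j k - 1 / 2 * (PC T a i j k + PC T a j i k + PC T a k i j)) ^ 2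
      = K2 K - S1 K T - ∑ a, ∑ i, ∑ j, ∑ k, K a i j k * PC T a j i k
        - ∑ a, ∑ i, ∑ j, ∑ k, K a i j k * PC T a k i j
        + 1 / 4 * (∑ a, ∑ i, ∑ j, ∑ k, PC T a i j k * PC T a i j k)
        + 1 / 4 * (∑ a, ∑ i, ∑ j, ∑ k, PC T a j i k * PC T a j i k)
        + 1 / 4 * (∑ a, ∑ i, ∑ j, ∑ k, PC T a k i j * PC T a k i j)
        + 1 / 2 * (∑ a, ∑ i, ∑ j, ∑ k, PC T a i j k * PC T a j i k)
        + 1 / 2 * (∑ a, ∑ i, ∑ j, ∑ k, PC T a i j k * PC T a k i j)
        + 1 / 2 * (∑ a, ∑ i, ∑ j, ∑ k, PC T a j i k * PC T a k i j) := by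
    unfold K2 S1
    simp only [Finset.mul_sum, ← Finset.sum_add_distrib, ← Finset.sum_sub_distrib]
    refine sum_congr rfl fun a _ => sum_congr rfl fun i _ => sum_congr rfl fun j _ =>
      sum_congr rfl fun k _ => ?_
    ring
  rw [expand, q1, q2, p11, p22, p33, p12, p13, p23] at key
  linarith

/-- **B5, algebra** -/
theorem alg5 {T : Ten N} (hT : TSymm T) {K : Fin N → Ten N} (hK : KSym K)
    (hM : ∀ a b, MM T a b = if a = b then 4 else 0) {RT κ : ℝ}
    (hc : K2 K + RT - 3 * S1 K T + 3 / 4 * c4t T - 6 * κ + 3 * (4 * N) ≤ 0)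
    (hd : -RT - 12 * (4 * N) + 6 * κ + 60 * N ≤ 0) : 16 * (N : ℝ) ≤ c4t T := by
  have := K_ineq hT hK hM
  linarith

end Vale.Agent.P254.EQ
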