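import Vale.Agent.P254.EQ.CMom

/-!
P254 / P248, equality case (helper953), block B3: cumulants of the tilts of a weight with exponential
decay and their derivatives.
-/

open MeasureTheory Filter Topology Matrix

namespace Vale.Agent.P254.EQ

open Vale.Agent.P254.Fr (E Mt Pg tl pt I Ev c2 c3 c4 c5 co pg_co muF AF TF KF RF Lin)

variable {n : ℕ} {w : E n → ℝ} {a C : ℝ} {B : Mt n} {c : E n}

theorem exists_ball_decay (c : E n) (B : Mt n) : ∃ M : ℝ, 0 ≤ M ∧ ∀ x : E n,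
    c ⬝ᵥ x - (1 / 2) * (x ⬝ᵥ B *ᵥ x) ≥ -(M * (1 + ‖x‖) ^ 2) := by
  obtain ⟨A, k, hA, h⟩ := pg_bound (Pg.dot c)
  refine ⟨n1 c + (∑ i, ∑ j, |B i j|) * n, ?_, fun x => ?_⟩
  · have := n1_nonneg c
    have : 0 ≤ ∑ i, ∑ j, |B i j| :=
      Finset.sum_nonneg fun i _ => Finset.sum_nonneg fun j _ => abs_nonneg _
    positivity
  · have h1 := neg_abs_le (c ⬝ᵥ x)
    have h2 := abs_dot_le_n1 c x
    have h3 := (le_abs_self _).trans (Fr.abs_quad_le B x)
    have h4 := dot_self_le x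
    have h5 := norm_nonneg x
    have h6 := n1_nonneg c
    have h7 : 0 ≤ ∑ i, ∑ j, |B i j| :=
      Finset.sum_nonneg fun i _ => Finset.sum_nonneg fun j _ => abs_nonneg _
    have h8 : (0 : ℝ) ≤ n := Nat.cast_nonneg n
    have h9 : (∑ i, ∑ j, |B i j|) * (x ⬝ᵥ x) ≤ (∑ i, ∑ j, |B i j|) * (n * ‖x‖ ^ 2) :=
      mul_le_mul_of_nonneg_left h4 h7
    have e1 : n1 c * ‖x‖ ≤ n1 c * (1 + ‖x‖) ^ 2 := by
      apply mul_le_mul_of_nonneg_left _ h6
      nlinarith
    have e2 : (∑ i, ∑ j, |B i j|) * (n * ‖x‖ ^ 2) ≤ (∑ i, ∑ j, |B i j|) * n * (1 + ‖x‖) ^ 2 := by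
      rw [mul_assoc]
      apply mul_le_mul_of_nonneg_left _ h7
      apply mul_le_mul_of_nonneg_left _ h8
      nlinarith
    have e3 : 0 ≤ (∑ i, ∑ j, |B i j|) * (n * ‖x‖ ^ 2) := by positivity
    nlinarith

theorem I_one_pos (hw : CW w a C) (h : Ad a B c) : 0 < I w B c (fun _ => 1) := by
  unfold I
  have hint := integrable_I hw h (Pg.const (n := n) 1)
  have hm := hw.mass
  have hwi : Integrable w := by
    by_contra hni
    rw [integral_undef hni] at hm
    exact lt_irrefl _ hm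
  rw [integral_pos_iff_support_of_nonneg (fun x => hw.nn x) hwi] at hm
  rw [integral_pos_iff_support_of_nonneg (fun x => ?_) hint]
  · refine hm.trans_le (measure_mono fun x hx => ?_)
    simp only [Function.mem_support, one_mul] at hx ⊢
    exact mul_ne_zero (Fr.tl_pos B c x).ne' hx
  · simp only [Pi.zero_apply, one_mul]
    exact tlw_nonneg hw B c x

theorem I_add (hw : CW w a C) (h : Ad a B c) {f g : E n → ℝ} (hf : Pg f) (hg : Pg g) :
    I w B c (fun x => f x + g x) = I w B c f + I w B c g := by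
  unfold I
  rw [← integral_add (integrable_I hw h hf) (integrable_I hw h hg)]
  exact integral_congr_ae (Eventually.of_forall fun x => by ring)

theorem Ev_add (hw : CW w a C) (h : Ad a B c) {f g : E n → ℝ} (hf : Pg f) (hg : Pg g) :
    Ev w B c (fun x => f x + g x) = Ev w B c f + Ev w B c g := by
  unfold Ev
  rw [I_add hw h hf hg, add_div]

theorem Ev_one (hw : CW w a C) (h : Ad a B c) : Ev w B c (fun _ => 1) = 1 :=
  div_self (I_one_pos hw h).ne'

theorem lin_Ev (hw : CW w a C) (h : Ad a B c) : Lin (Ev w B c) :=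
  ⟨fun _ _ hp hq => Ev_add hw h hp hq, fun r p _ => Fr.Ev_const_mul w B c r p⟩

theorem lin_c2 (hw : CW w a C) (h : Ad a B c) {f : E n → ℝ} (hf : Pg f) :
    Lin (c2 w B c f) :=
  ((lin_Ev hw h).comp hf).sub ((lin_Ev hw h).const_mul (Ev w B c f))

theorem lin_c3 (hw : CW w a C) (h : Ad a B c) {f g : E n → ℝ} (hf : Pg f) (hg : Pg g) :
    Lin (c3 w B c f g) :=
  ((lin_c2 hw h (hf.mul hg)).sub ((lin_c2 hw h hf).mul_const _)).sub
    ((lin_c2 hw h hg).const_mul _)

theorem lin_c4 (hw : CW w a C) (h : Ad a B c) {f g k : E n → ℝ} (hf : Pg f) (hg : Pg g)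
    (hk : Pg k) : Lin (c4 w B c f g k) :=
  ((lin_c3 hw h (hf.mul hg) hk).sub (((lin_c3 hw h hf hk).mul_const _).add'
    ((lin_c2 hw h hg).const_mul _))).sub
    (((lin_c2 hw h hf).mul_const _).add' ((lin_c3 hw h hg hk).const_mul _))

theorem lin_c5 (hw : CW w a C) (h : Ad a B c) {f g k l : E n → ℝ} (hf : Pg f)
    (hg : Pg g) (hk : Pg k) (hl : Pg l) : Lin (c5 w B c f g k l) :=
  ((lin_c4 hw h (hf.mul hg) hk hl).sub
    (((lin_c4 hw h hf hk hl).mul_const _).add' ((lin_c2 hw h hg).const_mul _) |>.add'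
      (((lin_c3 hw h hf hk).mul_const _).add' ((lin_c3 hw h hg hl).const_mul _)))).sub
    ((((lin_c3 hw h hf hl).mul_const _).add' ((lin_c3 hw h hg hk).const_mul _)).add'
      (((lin_c2 hw h hf).mul_const _).add' ((lin_c4 hw h hg hk hl).const_mul _)))

section deriv

variable {Q : Mt n} {S : Set ℝ}

theorem d1 (hw : CW w a C) (hB : ∀ x : E n, 0 ≤ x ⬝ᵥ B *ᵥ x) (hc : n1 c < a / 2)
    (hS : Side Q S) (e : E n) {f : E n → ℝ} (hf : Pg f) :
    HasDerivWithinAt (fun t : ℝ => Ev w (B + t • Q) (c + t • e) f) (c2 w B c f (pt Q e)) S 0 := by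
  have h1 := hasDerivWithinAt_I hw hB hc hS e hf
  have h2 := hasDerivWithinAt_I hw hB hc hS e (Pg.const (n := n) 1)
  have hpos := I_one_pos hw ⟨hB, hc.le⟩
  have hne : I w (B + (0 : ℝ) • Q) (c + (0 : ℝ) • e) (fun _ => 1) ≠ 0 := by
    rw [zero_smul, zero_smul, add_zero, add_zero]
    exact hpos.ne'
  have h3 := h1.div h2 hne
  simp only [zero_smul, add_zero, one_mul] at h3
  have e1 : (I w B c (fun x => f x * pt Q e x) * I w B c (fun _ => 1)
      - I w B c f * I w B c (fun x => pt Q e x)) / I w B c (fun _ => 1) ^ 2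
      = c2 w B c f (pt Q e) := by
    unfold c2 Ev
    field_simp
  rw [← e1]
  exact h3

theorem d2 (hw : CW w a C) (hB : ∀ x : E n, 0 ≤ x ⬝ᵥ B *ᵥ x) (hc : n1 c < a / 2)
    (hS : Side Q S) (e : E n) {f g : E n → ℝ} (hf : Pg f) (hg : Pg g) :
    HasDerivWithinAt (fun t : ℝ => c2 w (B + t • Q) (c + t • e) f g)
      (c3 w B c f g (pt Q e)) S 0 := by
  have h := (d1 hw hB hc hS e (hf.mul hg)).sub
    ((d1 hw hB hc hS e hf).mul (d1 hw hB hc hS e hg))
  simp only [zero_smul, add_zero] at h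
  have e1 : c3 w B c f g (pt Q e) = c2 w B c (fun x => f x * g x) (pt Q e)
      - (c2 w B c f (pt Q e) * Ev w B c g + Ev w B c f * c2 w B c g (pt Q e)) := by
    unfold c3; ring
  rw [e1]
  exact h

theorem d3 (hw : CW w a C) (hB : ∀ x : E n, 0 ≤ x ⬝ᵥ B *ᵥ x) (hc : n1 c < a / 2)
    (hS : Side Q S) (e : E n) {f g h : E n → ℝ} (hf : Pg f) (hg : Pg g) (hh : Pg h) :
    HasDerivWithinAt (fun t : ℝ => c3 w (B + t • Q) (c + t • e) f g h)
      (c4 w B c f g h (pt Q e)) S 0 := by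
  have h := ((d2 hw hB hc hS e (hf.mul hg) hh).sub
    ((d2 hw hB hc hS e hf hh).mul (d1 hw hB hc hS e hg))).sub
    ((d1 hw hB hc hS e hf).mul (d2 hw hB hc hS e hg hh))
  simp only [zero_smul, add_zero] at h
  exact h

theorem d4 (hw : CW w a C) (hB : ∀ x : E n, 0 ≤ x ⬝ᵥ B *ᵥ x) (hc : n1 c < a / 2)
    (hS : Side Q S) (e : E n) {f g h k : E n → ℝ} (hf : Pg f) (hg : Pg g) (hh : Pg h)
    (hk : Pg k) :
    HasDerivWithinAt (fun t : ℝ => c4 w (B + t • Q) (c + t • e) f g h k)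
      (c5 w B c f g h k (pt Q e)) S 0 := by
  have h := ((d3 hw hB hc hS e (hf.mul hg) hh hk).sub
    (((d3 hw hB hc hS e hf hh hk).mul (d1 hw hB hc hS e hg)).add
      ((d2 hw hB hc hS e hf hh).mul (d2 hw hB hc hS e hg hk)))).sub
    (((d2 hw hB hc hS e hf hk).mul (d2 hw hB hc hS e hg hh)).add
      ((d1 hw hB hc hS e hf).mul (d3 hw hB hc hS e hg hh hk)))
  simp only [zero_smul, add_zero] at h
  exact h

end deriv

/-! ### derivatives along `c` at `B = 0` in a direction `e`, for all small parameters -/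

/-- shift of the base point -/
theorem shift0 {u : E n → ℝ} {e : E n} {v : ℝ} (t : ℝ)
    (h : HasDerivWithinAt (fun s : ℝ => u (t • e + s • e)) v Set.univ 0) :
    HasDerivAt (fun t : ℝ => u (t • e)) v t := by
  rw [hasDerivWithinAt_univ] at h
  have h0 : HasDerivAt (fun s : ℝ => u (t • e + s • e)) v (t - t) := by rwa [sub_self]
  have h1 := h0.comp_sub_const t t
  refine h1.congr_of_eventuallyEq (Eventually.of_forall fun x => ?_)
  show u (x • e) = u (t • e + (x - t) • e)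
  congr 1
  rw [← add_smul, add_sub_cancel]

theorem zero_quad (x : E n) : 0 ≤ x ⬝ᵥ (0 : Mt n) *ᵥ x := by
  rw [Matrix.zero_mulVec, dotProduct_zero]

theorem small (ha : 0 < a) (e : E n) : ∀ᶠ t in 𝓝 (0 : ℝ), n1 (t • e) < a / 2 := by
  have h : Continuous fun t : ℝ => |t| * n1 e := by fun_prop
  have h1 := h.tendsto 0
  simp only [abs_zero, zero_mul] at h1
  filter_upwards [h1.eventually (gt_mem_nhds (half_pos ha))] with t ht
  rwa [n1_smul]

theorem ad_zero (ha : 0 < a) : Ad a (0 : Mt n) (0 : E n) :=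
  ⟨zero_quad, by unfold n1; simp; linarith⟩

theorem dI1 (hw : CW w a C) (e : E n) {f : E n → ℝ} (hf : Pg f) {t : ℝ} (ht : n1 (t • e) < a / 2) :
    HasDerivAt (fun t : ℝ => I w 0 (t • e) f) (I w 0 (t • e) (fun x => f x * (e ⬝ᵥ x))) t := by
  refine shift0 (u := fun c => I w 0 c f) t ?_
  have h := hasDerivWithinAt_I hw zero_quad ht (side_zero Set.univ) e hf
  simp only [smul_zero, add_zero] at h
  rw [Fr.pt_zero] at h
  exact h

theorem dE1 (hw : CW w a C) (e : E n) {f : E n → ℝ} (hf : Pg f) {t : ℝ} (ht : n1 (t • e) < a / 2) :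
    HasDerivAt (fun t : ℝ => Ev w 0 (t • e) f) (c2 w 0 (t • e) f (fun x => e ⬝ᵥ x)) t := by
  refine shift0 (u := fun c => Ev w 0 c f) t ?_
  have h := d1 hw zero_quad ht (side_zero Set.univ) e hf
  simp only [smul_zero, add_zero] at h
  rw [Fr.pt_zero] at h
  exact h

theorem dE2 (hw : CW w a C) (e : E n) {f g : E n → ℝ} (hf : Pg f) (hg : Pg g) {t : ℝ}
    (ht : n1 (t • e) < a / 2) :
    HasDerivAt (fun t : ℝ => c2 w 0 (t • e) f g) (c3 w 0 (t • e) f g (fun x => e ⬝ᵥ x)) t := by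
  refine shift0 (u := fun c => c2 w 0 c f g) t ?_
  have h := d2 hw zero_quad ht (side_zero Set.univ) e hf hg
  simp only [smul_zero, add_zero] at h
  rw [Fr.pt_zero] at h
  exact h

theorem dE3 (hw : CW w a C) (e : E n) {f g k : E n → ℝ} (hf : Pg f) (hg : Pg g) (hk : Pg k) {t : ℝ}
    (ht : n1 (t • e) < a / 2) :
    HasDerivAt (fun t : ℝ => c3 w 0 (t • e) f g k) (c4 w 0 (t • e) f g k (fun x => e ⬝ᵥ x)) t := by
  refine shift0 (u := fun c => c3 w 0 c f g k) t ?_
  have h := d3 hw zero_quad ht (side_zero Set.univ) e hf hg hk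
  simp only [smul_zero, add_zero] at h
  rw [Fr.pt_zero] at h
  exact h

theorem dE4 (hw : CW w a C) (e : E n) {f g k l : E n → ℝ} (hf : Pg f) (hg : Pg g) (hk : Pg k)
    (hl : Pg l) {t : ℝ} (ht : n1 (t • e) < a / 2) :
    HasDerivAt (fun t : ℝ => c4 w 0 (t • e) f g k l)
      (c5 w 0 (t • e) f g k l (fun x => e ⬝ᵥ x)) t := by
  refine shift0 (u := fun c => c4 w 0 c f g k l) t ?_
  have h := d4 hw zero_quad ht (side_zero Set.univ) e hf hg hk hl
  simp only [smul_zero, add_zero] at h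
  rw [Fr.pt_zero] at h
  exact h

end Vale.Agent.P254.EQ
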