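import Vale.Agent.P254.Frame829.Arr
import Vale.Agent.P254.R304.Weight

/-!
P254 / P248, equality case (helper953), block B3: calculus of the tilted moments of a weight with
exponential decay (one-sided in `B`, two-sided in small `c`).
-/

open MeasureTheory Filter Topology Matrix

namespace Vale.Agent.P254.EQ

open Vale.Agent.P254.Fr (E Mt Pg tl pt I Ev c2 c3 c4 c5 co)

variable {n : ℕ}

/-- weights with exponential decay -/
structure CW (w : E n → ℝ) (a C : ℝ) : Prop where
  a_pos : 0 < a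
  meas : Measurable w
  nn : ∀ x, 0 ≤ w x
  le : ∀ x, w x ≤ C * Real.exp (-(a * ‖x‖))
  mass : 0 < ∫ x, w x

/-- `ℓ¹` norm -/
def n1 (c : E n) : ℝ := ∑ i, |c i|

theorem n1_nonneg (c : E n) : 0 ≤ n1 c := Finset.sum_nonneg fun _ _ => abs_nonneg _

theorem n1_smul (t : ℝ) (c : E n) : n1 (t • c) = |t| * n1 c := by
  unfold n1
  rw [Finset.mul_sum]
  exact Finset.sum_congr rfl fun i _ => by rw [Pi.smul_apply, smul_eq_mul, abs_mul]

theorem n1_add (c e : E n) : n1 (c + e) ≤ n1 c + n1 e := by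
  unfold n1
  rw [← Finset.sum_add_distrib]
  exact Finset.sum_le_sum fun i _ => abs_add_le _ _

theorem abs_dot_le_n1 (c x : E n) : |c ⬝ᵥ x| ≤ n1 c * ‖x‖ := by
  unfold dotProduct n1
  rw [Finset.sum_mul]
  refine (Finset.abs_sum_le_sum_abs _ _).trans (Finset.sum_le_sum fun i _ => ?_)
  rw [abs_mul]
  exact mul_le_mul_of_nonneg_left (norm_le_pi_norm x i) (abs_nonneg _)

/-- admissible tilts -/
structure Ad (a : ℝ) (B : Mt n) (c : E n) : Prop where
  B : ∀ x : E n, 0 ≤ x ⬝ᵥ B *ᵥ x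
  c : n1 c ≤ a / 2

theorem dot_self_le (x : E n) : x ⬝ᵥ x ≤ n * ‖x‖ ^ 2 := by
  unfold dotProduct
  calc ∑ i, x i * x i ≤ ∑ _i : Fin n, ‖x‖ ^ 2 := Finset.sum_le_sum fun i _ => by
        have h := norm_le_pi_norm x i
        rw [Real.norm_eq_abs] at h
        rw [← abs_mul_abs_self, sq]
        exact mul_le_mul h h (abs_nonneg _) (norm_nonneg _)
    _ = n * ‖x‖ ^ 2 := by simp

/-- polynomial growth in the sup norm -/
theorem pg_bound {φ : E n → ℝ} (hφ : Pg φ) :
    ∃ (A : ℝ) (k : ℕ), 0 ≤ A ∧ ∀ x, |φ x| ≤ A * (1 + ‖x‖) ^ k := by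
  obtain ⟨C, k, hC, h⟩ := hφ.exists_pos
  refine ⟨C * (n + 1) ^ k, 2 * k, by positivity, fun x => (h x).trans ?_⟩
  have h1 := dot_self_le x
  have h2 := norm_nonneg x
  have h3 : 1 + x ⬝ᵥ x ≤ (n + 1) * (1 + ‖x‖) ^ 2 := by
    have hn : (0 : ℝ) ≤ n := Nat.cast_nonneg n
    nlinarith [mul_nonneg hn h2, mul_nonneg hn (sq_nonneg ‖x‖)]
  have h0 : 0 ≤ 1 + x ⬝ᵥ x := by
    have := Fr.one_le_dot x
    linarith
  calc C * (1 + x ⬝ᵥ x) ^ k ≤ C * ((n + 1) * (1 + ‖x‖) ^ 2) ^ k := by gcongr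
    _ = _ := by rw [mul_pow, ← pow_mul]; ring

theorem integrable_pg_exp {φ : E n → ℝ} (hφ : Pg φ) {a : ℝ} (ha : 0 < a) :
    Integrable (fun x => |φ x| * Real.exp (-(a * ‖x‖))) := by
  obtain ⟨A, k, hA, h⟩ := pg_bound hφ
  refine ((R304.integrable_poly_exp n ha k).const_mul A).mono' ?_
    (Eventually.of_forall fun x => ?_)
  · refine (hφ.1.abs.mul ?_).aestronglyMeasurable
    exact (Real.measurable_exp.comp ((measurable_norm.const_mul a).neg))
  · rw [Real.norm_eq_abs, abs_of_nonneg (by positivity)]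
    calc |φ x| * Real.exp (-(a * ‖x‖)) ≤ (A * (1 + ‖x‖) ^ k) * Real.exp (-(a * ‖x‖)) :=
          mul_le_mul_of_nonneg_right (h x) (Real.exp_pos _).le
      _ = _ := by ring

variable {w : E n → ℝ} {a C : ℝ} {B : Mt n} {c : E n}

theorem CW.C_nonneg (hw : CW w a C) : 0 ≤ C := by
  have h := (hw.nn 0).trans (hw.le 0)
  simpa using h

theorem tl_le (h : Ad a B c) (x : E n) : tl B c x ≤ Real.exp (a / 2 * ‖x‖) := by
  unfold tl
  refine Real.exp_le_exp.2 ?_
  have h1 := (le_abs_self _).trans (abs_dot_le_n1 c x)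
  have h2 := h.B x
  have h3 := mul_le_mul_of_nonneg_right h.c (norm_nonneg x)
  linarith

theorem tlw_le (hw : CW w a C) (h : Ad a B c) (x : E n) :
    tl B c x * w x ≤ C * Real.exp (-(a / 2 * ‖x‖)) := by
  calc tl B c x * w x ≤ Real.exp (a / 2 * ‖x‖) * (C * Real.exp (-(a * ‖x‖))) :=
        mul_le_mul (tl_le h x) (hw.le x) (hw.nn x) (Real.exp_pos _).le
    _ = C * (Real.exp (a / 2 * ‖x‖) * Real.exp (-(a * ‖x‖))) := by ring
    _ = _ := by rw [← Real.exp_add]; congr 2; ring

theorem tlw_nonneg (hw : CW w a C) (B : Mt n) (c x : E n) : 0 ≤ tl B c x * w x :=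
  mul_nonneg (Fr.tl_pos B c x).le (hw.nn x)

theorem meas_integrand (hw : CW w a C) (B : Mt n) (c : E n)
    {φ : E n → ℝ} (hφ : Pg φ) : AEStronglyMeasurable (fun x => φ x * (tl B c x * w x)) volume :=
  (hφ.1.mul ((Fr.measurable_tl B c).mul hw.meas)).aestronglyMeasurable

theorem integrand_le (hw : CW w a C) (h : Ad a B c) (φ : E n → ℝ) (x : E n) :
    ‖φ x * (tl B c x * w x)‖ ≤ C * (|φ x| * Real.exp (-(a / 2 * ‖x‖))) := by
  rw [Real.norm_eq_abs, abs_mul, abs_of_nonneg (tlw_nonneg hw B c x)]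
  calc |φ x| * (tl B c x * w x) ≤ |φ x| * (C * Real.exp (-(a / 2 * ‖x‖))) :=
        mul_le_mul_of_nonneg_left (tlw_le hw h x) (abs_nonneg _)
    _ = _ := by ring

theorem integrable_I (hw : CW w a C) (h : Ad a B c) {φ : E n → ℝ} (hφ : Pg φ) :
    Integrable (fun x => φ x * (tl B c x * w x)) :=
  ((integrable_pg_exp hφ (half_pos hw.a_pos)).const_mul C).mono' (meas_integrand hw B c hφ)
    (Eventually.of_forall fun x => integrand_le hw h φ x)

theorem abs_exp_sub_one_le (u : ℝ) : |Real.exp u - 1| ≤ |u| * Real.exp (max u 0) := by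
  rcases le_total 0 u with h | h
  · rw [max_eq_left h, abs_of_nonneg h, abs_of_nonneg (by linarith [Real.add_one_le_exp u])]
    have h1 := Real.add_one_le_exp (-u)
    have h2 : Real.exp u * Real.exp (-u) = 1 := by rw [← Real.exp_add]; simp
    nlinarith [Real.exp_pos u]
  · rw [max_eq_right h, Real.exp_zero, mul_one, abs_of_nonpos h,
      abs_of_nonpos (by linarith [Real.exp_le_one_iff.2 h])]
    linarith [Real.add_one_le_exp u]

/-- directions admissible on the side `S` -/
def Side (Q : Mt n) (S : Set ℝ) : Prop := ∀ t ∈ S, ∀ x : E n, 0 ≤ t * (x ⬝ᵥ Q *ᵥ x)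

theorem side_zero (S : Set ℝ) : Side (0 : Mt n) S := fun t _ x => by
  rw [Matrix.zero_mulVec, dotProduct_zero, mul_zero]

theorem side_psd {Q : Mt n} (hQ : Q.PosSemidef) : Side Q (Set.Ici 0) := fun t ht x =>
  mul_nonneg ht (Fr.nonneg_of_psd hQ x)

/-- differentiation under the integral sign, one-sided -/
theorem hasDerivWithinAt_I (hw : CW w a C) (hB : ∀ x : E n, 0 ≤ x ⬝ᵥ B *ᵥ x) (hc : n1 c < a / 2)
    {Q : Mt n} {S : Set ℝ} (hS : Side Q S) (e : E n) {φ : E n → ℝ} (hφ : Pg φ) :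
    HasDerivWithinAt (fun t : ℝ => I w (B + t • Q) (c + t • e) φ)
      (I w B c (fun x => φ x * pt Q e x)) S 0 := by
  rw [hasDerivWithinAt_iff_tendsto_slope]
  have hAd : Ad a B c := ⟨hB, hc.le⟩
  set δ : ℝ := (a / 2 - n1 c) / (n1 e + 1) with hδ
  have hδ0 : 0 < δ := div_pos (by linarith) (by linarith [n1_nonneg e])
  have hδ1 : δ * n1 e ≤ a / 2 - n1 c := by
    rw [hδ, div_mul_eq_mul_div, div_le_iff₀ (by linarith [n1_nonneg e])]
    nlinarith [n1_nonneg e]
  have hadm : ∀ t ∈ S, |t| < δ → Ad a (B + t • Q) (c + t • e) := by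
    intro t ht htδ
    refine ⟨fun x => ?_, ?_⟩
    · rw [Matrix.add_mulVec, Matrix.smul_mulVec, dotProduct_add, dotProduct_smul, smul_eq_mul]
      exact add_nonneg (hB x) (hS t ht x)
    · refine (n1_add _ _).trans ?_
      rw [n1_smul]
      have : |t| * n1 e ≤ δ * n1 e := mul_le_mul_of_nonneg_right htδ.le (n1_nonneg e)
      linarith
  have hp := Pg.pt Q e
  -- pointwise limit and domination of the slopes
  have key : Tendsto (fun t : ℝ => ∫ x, φ x * (tl B c x * w x) *
      (t⁻¹ * (Real.exp (t * pt Q e x) - 1))) (𝓝[S \ {0}] 0)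
      (𝓝 (∫ x, φ x * (tl B c x * w x) * pt Q e x)) := by
    refine tendsto_integral_filter_of_dominated_convergence
      (fun x => C * (|φ x * pt Q e x| * Real.exp (-(a / 2 * ‖x‖)))) ?_ ?_ ?_ ?_
    · refine Eventually.of_forall fun t => ?_
      exact (meas_integrand hw B c hφ).mul
        (((hp.1.const_mul t).exp.sub_const 1).const_mul t⁻¹).aestronglyMeasurable
    · have h1 : ∀ᶠ t in 𝓝[S \ {0}] (0 : ℝ), |t| < δ := by
        refine nhdsWithin_le_nhds ?_
        have : Metric.ball (0 : ℝ) δ ∈ 𝓝 (0 : ℝ) := Metric.ball_mem_nhds _ hδ0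
        filter_upwards [this] with t ht
        simpa using ht
      filter_upwards [h1, self_mem_nhdsWithin] with t ht1 ht2
      refine Eventually.of_forall fun x => ?_
      have htS : t ∈ S := ht2.1
      have ht0 : t ≠ 0 := ht2.2
      have hw0 := tlw_nonneg hw B c x
      rw [Real.norm_eq_abs, abs_mul, abs_mul, abs_of_nonneg hw0, abs_mul, abs_inv]
      have h2 := abs_exp_sub_one_le (t * pt Q e x)
      have h3 : |t|⁻¹ * |Real.exp (t * pt Q e x) - 1| ≤ |pt Q e x| *
          Real.exp (max (t * pt Q e x) 0) := by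
        rw [inv_mul_le_iff₀ (abs_pos.2 ht0)]
        refine h2.trans (le_of_eq ?_)
        rw [abs_mul]; ring
      have h4 : tl B c x * w x * Real.exp (max (t * pt Q e x) 0) ≤
          C * Real.exp (-(a / 2 * ‖x‖)) := by
        rcases le_total (t * pt Q e x) 0 with h5 | h5
        · rw [max_eq_right h5, Real.exp_zero, mul_one]
          exact tlw_le hw hAd x
        · rw [max_eq_left h5]
          have h6 := tlw_le hw (hadm t htS ht1) x
          rw [Fr.tl_line] at h6
          calc tl B c x * w x * Real.exp (t * pt Q e x)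
              = tl B c x * Real.exp (t * pt Q e x) * w x := by ring
            _ ≤ _ := h6
      calc |φ x| * (tl B c x * w x) * (|t|⁻¹ * |Real.exp (t * pt Q e x) - 1|)
          ≤ |φ x| * (tl B c x * w x) * (|pt Q e x| * Real.exp (max (t * pt Q e x) 0)) :=
            mul_le_mul_of_nonneg_left h3 (mul_nonneg (abs_nonneg _) hw0)
        _ = |φ x| * |pt Q e x| * (tl B c x * w x * Real.exp (max (t * pt Q e x) 0)) := by ring
        _ ≤ |φ x| * |pt Q e x| * (C * Real.exp (-(a / 2 * ‖x‖))) :=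
            mul_le_mul_of_nonneg_left h4 (by positivity)
        _ = _ := by rw [abs_mul]; ring
    · exact (integrable_pg_exp (hφ.mul hp) (half_pos hw.a_pos)).const_mul C
    · refine Eventually.of_forall fun x => ?_
      refine Tendsto.const_mul _ ?_
      have h1 : HasDerivAt (fun t : ℝ => Real.exp (t * pt Q e x)) (pt Q e x) 0 := by
        have h3 : HasDerivAt (fun t : ℝ => t * pt Q e x) (pt Q e x) 0 := by
          simpa using (hasDerivAt_id (0 : ℝ)).mul_const (pt Q e x)
        have := h3.exp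
        simpa using this
      have h2 := hasDerivAt_iff_tendsto_slope.1 h1
      have h3 : Tendsto (slope (fun t : ℝ => Real.exp (t * pt Q e x)) 0) (𝓝[S \ {0}] 0)
          (𝓝 (pt Q e x)) :=
        h2.mono_left (nhdsWithin_mono _ fun t ht => ht.2)
      refine h3.congr fun t => ?_
      rw [slope_def_field]
      simp only [zero_mul, Real.exp_zero, sub_zero]
      rw [div_eq_inv_mul]
  have hlim : I w B c (fun x => φ x * pt Q e x) = ∫ x, φ x * (tl B c x * w x) * pt Q e x := by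
    unfold I
    exact integral_congr_ae (Eventually.of_forall fun x => by ring)
  rw [hlim]
  refine key.congr' ?_
  have h1 : ∀ᶠ t in 𝓝[S \ {0}] (0 : ℝ), |t| < δ := by
    refine nhdsWithin_le_nhds ?_
    have : Metric.ball (0 : ℝ) δ ∈ 𝓝 (0 : ℝ) := Metric.ball_mem_nhds _ hδ0
    filter_upwards [this] with t ht
    simpa using ht
  filter_upwards [h1, self_mem_nhdsWithin] with t ht1 ht2
  have htS : t ∈ S := ht2.1
  rw [slope_def_field]
  simp only [zero_smul, add_zero, sub_zero]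
  have i1 := integrable_I hw (hadm t htS ht1) hφ
  have i2 := integrable_I hw hAd hφ
  unfold I
  rw [← integral_sub i1 i2, div_eq_inv_mul, ← integral_const_mul]
  refine integral_congr_ae (Eventually.of_forall fun x => ?_)
  simp only
  rw [Fr.tl_line]
  ring

end Vale.Agent.P254.EQ
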