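import Vale.Agent.P254.EQ.Diag

/-!
P254 / P248, equality case (helper953), block B1 (second part): the numerical inequality gives the
product form of the third cumulant tensor.
-/

namespace Vale.Agent.P254.EQ

open Matrix Module
open Vale.Agent.P254.L (Vec Mat Ten TSymm)

variable {N : ℕ}

/-- the tetrahedral contraction `∑ tr (T_a T_k T_a T_k)` -/
def c4t (T : Ten N) : ℝ := ∑ a, ∑ k, (slc T a * slc T k * slc T a * slc T k).trace

theorem trace_mul_transpose_nonneg (M : Mat N) : 0 ≤ (M * Mᵀ).trace := by
  rw [Matrix.trace]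
  refine Finset.sum_nonneg fun i _ => ?_
  rw [diag_apply, Matrix.mul_apply]
  refine Finset.sum_nonneg fun j _ => ?_
  rw [transpose_apply]
  exact mul_self_nonneg _

theorem eq_zero_of_trace {M : Mat N} (h : (M * Mᵀ).trace ≤ 0) : M = 0 := by
  have h1 : ∀ i, 0 ≤ (M * Mᵀ) i i := by
    intro i
    rw [Matrix.mul_apply]
    exact Finset.sum_nonneg fun j _ => by rw [transpose_apply]; exact mul_self_nonneg _
  have h2 : ∀ i, (M * Mᵀ) i i = 0 := by
    intro i
    refine le_antisymm (le_trans (Finset.single_le_sum (f := fun i => (M * Mᵀ) i i)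
      (fun i _ => h1 i) (Finset.mem_univ i)) h) (h1 i)
  ext i j
  have h3 := h2 i
  rw [Matrix.mul_apply] at h3
  have h4 := (Finset.sum_eq_zero_iff_of_nonneg (fun j _ => by
    rw [transpose_apply]; exact mul_self_nonneg _)).1 h3 j (Finset.mem_univ j)
  rw [transpose_apply] at h4
  simpa using h4

/-- slices commute as soon as the tetrahedral contraction is maximal -/
theorem slices_commute {T : Ten N} (hT : TSymm T)
    (hM : ∀ a b, ∑ j, ∑ k, T a j k * T b j k = if a = b then 4 else 0)
    (hc : 16 * (N : ℝ) ≤ c4t T) (a b : Fin N) : slc T a * slc T b = slc T b * slc T a := by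
  have hs : ∀ a, (slc T a)ᵀ = slc T a := fun a => slc_symm hT a
  -- `∑ T_a^2 = 4`
  have hsq : ∑ a, slc T a * slc T a = (4 : ℝ) • (1 : Mat N) := by
    ext i j
    rw [Matrix.sum_apply, Matrix.smul_apply, Matrix.one_apply, smul_eq_mul]
    have h1 := hM i j
    rw [Finset.sum_comm] at h1
    have e : ∀ a, (slc T a * slc T a) i j = ∑ k, T i k a * T j k a := by
      intro a
      rw [Matrix.mul_apply]
      refine Finset.sum_congr rfl fun k _ => ?_
      simp only [slc, of_apply]
      have e1 : T a i k = T i k a := by rw [hT.1 a i k, hT.2 i a k]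
      have e2 : T a k j = T j k a := by rw [hT.2 a k j, hT.1 a j k, hT.2 j a k]
      rw [e1, e2]
    simp only [e]
    rw [h1]
    split_ifs <;> simp
  have h16 : ∑ a, ∑ k, (slc T a * slc T a * (slc T k * slc T k)).trace = 16 * (N : ℝ) := by
    have e1 : ∑ a, ∑ k, (slc T a * slc T a * (slc T k * slc T k)).trace =
        ((∑ a, slc T a * slc T a) * (∑ k, slc T k * slc T k)).trace := by
      rw [Finset.sum_mul, Matrix.trace_sum]
      refine Finset.sum_congr rfl fun a _ => ?_
      rw [Finset.mul_sum, Matrix.trace_sum]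
    rw [e1, hsq]
    rw [Matrix.smul_mul, Matrix.one_mul, Matrix.trace_smul, Matrix.trace_smul, Matrix.trace_one]
    simp
    ring
  -- commutators
  have hcom : ∀ a k, ((slc T a * slc T k - slc T k * slc T a) *
      (slc T a * slc T k - slc T k * slc T a)ᵀ).trace =
      2 * (slc T a * slc T a * (slc T k * slc T k)).trace -
        2 * (slc T a * slc T k * slc T a * slc T k).trace := by
    intro a k
    rw [Matrix.transpose_sub, Matrix.transpose_mul, Matrix.transpose_mul, hs a, hs k]
    rw [Matrix.sub_mul, Matrix.mul_sub, Matrix.mul_sub, Matrix.trace_sub, Matrix.trace_sub,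
      Matrix.trace_sub]
    have e1 : (slc T a * slc T k * (slc T k * slc T a)).trace =
        (slc T a * slc T a * (slc T k * slc T k)).trace := by
      rw [Matrix.mul_assoc, Matrix.trace_mul_comm, Matrix.mul_assoc, Matrix.mul_assoc,
        ← Matrix.mul_assoc (slc T k) (slc T k), Matrix.trace_mul_comm]
    have e2 : (slc T k * slc T a * (slc T a * slc T k)).trace =
        (slc T a * slc T a * (slc T k * slc T k)).trace := by
      rw [Matrix.mul_assoc, Matrix.trace_mul_comm, Matrix.mul_assoc, Matrix.mul_assoc,
        Matrix.mul_assoc]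
    have e3 : (slc T a * slc T k * (slc T a * slc T k)).trace =
        (slc T a * slc T k * slc T a * slc T k).trace := by
      rw [← Matrix.mul_assoc]
    have e4 : (slc T k * slc T a * (slc T k * slc T a)).trace =
        (slc T a * slc T k * slc T a * slc T k).trace := by
      rw [Matrix.mul_assoc, Matrix.trace_mul_comm]
      simp only [Matrix.mul_assoc]
    rw [e1, e2, e3, e4]
    ring
  have hsum : ∑ a, ∑ k, ((slc T a * slc T k - slc T k * slc T a) *
      (slc T a * slc T k - slc T k * slc T a)ᵀ).trace ≤ 0 := by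
    simp only [hcom]
    have : ∑ a, ∑ k, (2 * (slc T a * slc T a * (slc T k * slc T k)).trace -
        2 * (slc T a * slc T k * slc T a * slc T k).trace) =
        2 * ∑ a, ∑ k, (slc T a * slc T a * (slc T k * slc T k)).trace - 2 * c4t T := by
      unfold c4t
      simp only [Finset.mul_sum, Finset.sum_sub_distrib]
    rw [this, h16]
    linarith
  have h0 : ((slc T a * slc T b - slc T b * slc T a) *
      (slc T a * slc T b - slc T b * slc T a)ᵀ).trace ≤ 0 := by
    refine le_trans ?_ hsum
    refine le_trans (Finset.single_le_sum (f := fun k => ((slc T a * slc T k - slc T k * slc T a) *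
      (slc T a * slc T k - slc T k * slc T a)ᵀ).trace)
      (fun k _ => trace_mul_transpose_nonneg _) (Finset.mem_univ b)) ?_
    exact Finset.single_le_sum (f := fun a => ∑ k, ((slc T a * slc T k - slc T k * slc T a) *
      (slc T a * slc T k - slc T k * slc T a)ᵀ).trace)
      (fun a _ => Finset.sum_nonneg fun k _ => trace_mul_transpose_nonneg _) (Finset.mem_univ a)
  exact sub_eq_zero.1 (eq_zero_of_trace h0)

/-- **block B1** -/
theorem exists_product {T : Ten N} (hT : TSymm T)
    (hM : ∀ a b, ∑ j, ∑ k, T a j k * T b j k = if a = b then 4 else 0)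
    (hc : 16 * (N : ℝ) ≤ c4t T) :
    ∃ u : Fin N → Fin N → ℝ, (∀ i j, u i ⬝ᵥ u j = if i = j then 1 else 0) ∧
      ∀ a b c, T a b c = ∑ i, 2 * (u i a * u i b * u i c) := by
  obtain ⟨u, l, hu, hl⟩ := exists_frame hT (slices_commute hT hM hc)
  -- `l i ^ 2 = 4`
  have hl2 : ∀ i, l i ^ 2 = 4 := by
    intro p
    -- `T[u_p, ·, ·] = l_p u_p u_p`
    have e1 : ∀ j k, ∑ a, u p a * T a j k = l p * (u p j * u p k) := by
      intro j k
      simp only [hl]
      calc ∑ a, u p a * ∑ i, l i * (u i a * u i j * u i k)
          = ∑ i, l i * (u i j * u i k) * (u p ⬝ᵥ u i) := by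
            simp only [Finset.mul_sum, dotProduct]
            rw [Finset.sum_comm]
            exact Finset.sum_congr rfl fun i _ => Finset.sum_congr rfl fun a _ => by ring
        _ = l p * (u p j * u p k) := by
            simp only [hu]
            simp
    have e2 : ∑ a, ∑ b, u p a * u p b * ∑ j, ∑ k, T a j k * T b j k = 4 := by
      simp only [hM]
      have : ∀ a, ∑ b, u p a * u p b * (if a = b then (4 : ℝ) else 0) = 4 * (u p a * u p a) := by
        intro a
        simp
        ring
      simp only [this]
      rw [← Finset.mul_sum]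
      have := hu p p
      unfold dotProduct at this
      rw [this, if_pos rfl, mul_one]
    have e3 : ∑ a, ∑ b, u p a * u p b * ∑ j, ∑ k, T a j k * T b j k =
        ∑ j, ∑ k, (∑ a, u p a * T a j k) * (∑ b, u p b * T b j k) := by
      simp only [Finset.sum_mul_sum]
      have h1 : ∀ a b, u p a * u p b * ∑ j, ∑ k, T a j k * T b j k =
          ∑ j, ∑ k, u p a * T a j k * (u p b * T b j k) := by
        intro a b
        rw [Finset.mul_sum]
        refine Finset.sum_congr rfl fun j _ => ?_
        rw [Finset.mul_sum]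
        exact Finset.sum_congr rfl fun k _ => by ring
      simp only [h1]
      calc ∑ a, ∑ b, ∑ j, ∑ k, u p a * T a j k * (u p b * T b j k)
          = ∑ a, ∑ j, ∑ b, ∑ k, u p a * T a j k * (u p b * T b j k) :=
            Finset.sum_congr rfl fun a _ => Finset.sum_comm
        _ = ∑ j, ∑ a, ∑ b, ∑ k, u p a * T a j k * (u p b * T b j k) := Finset.sum_comm
        _ = ∑ j, ∑ a, ∑ k, ∑ b, u p a * T a j k * (u p b * T b j k) :=
            Finset.sum_congr rfl fun j _ => Finset.sum_congr rfl fun a _ => Finset.sum_comm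
        _ = _ := Finset.sum_congr rfl fun j _ => Finset.sum_comm
    rw [e3] at e2
    simp only [e1] at e2
    have hpp := hu p p
    unfold dotProduct at hpp
    rw [if_pos rfl] at hpp
    have e4 : ∑ j, ∑ k, l p * (u p j * u p k) * (l p * (u p j * u p k)) =
        l p ^ 2 * ((∑ j, u p j * u p j) * (∑ k, u p k * u p k)) := by
      rw [Finset.sum_mul_sum, Finset.mul_sum]
      refine Finset.sum_congr rfl fun j _ => ?_
      rw [Finset.mul_sum]
      exact Finset.sum_congr rfl fun k _ => by ring
    rw [e4, hpp] at e2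
    linarith
  have hl3 : ∀ i, (l i / 2) ^ 2 = 1 := fun i => by rw [div_pow, hl2 i]; norm_num
  refine ⟨fun i a => l i / 2 * u i a, fun i j => ?_, fun a b c => ?_⟩
  · have e : (fun a => l i / 2 * u i a) ⬝ᵥ (fun a => l j / 2 * u j a) =
        (l i / 2) * (l j / 2) * (u i ⬝ᵥ u j) := by
      unfold dotProduct
      rw [Finset.mul_sum]
      exact Finset.sum_congr rfl fun k _ => by ring
    rw [e, hu]
    split_ifs with h
    · subst h
      have := hl3 i
      nlinarith
    · ring
  · rw [hl]
    refine Finset.sum_congr rfl fun i _ => ?_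
    have e : 2 * (l i / 2 * u i a * (l i / 2 * u i b) * (l i / 2 * u i c)) =
        2 * ((l i / 2) ^ 2 * (l i / 2)) * (u i a * u i b * u i c) := by ring
    rw [e, hl3 i]
    ring

end Vale.Agent.P254.EQ
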