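import Vale.Agent.P254.L.Tilt

/-!
P254 / P248, equality case (helper953), block B1: a symmetric 3-tensor with commuting slices and
`T·T = 4` is `2 ∑ uᵢ⊗uᵢ⊗uᵢ` for an orthonormal basis `u`.
-/

namespace Vale.Agent.P254.EQ

open Matrix Module
open Vale.Agent.P254.L (Vec Mat Ten TSymm)

variable {N : ℕ}

/-- simultaneous diagonalisation of a commuting family of symmetric operators, with an orthonormal
basis of joint eigenvectors -/
theorem exists_joint {E : Type*} [NormedAddCommGroup E] [InnerProductSpace ℝ E]
    [FiniteDimensional ℝ E] {ι : Type*} (hN : Module.finrank ℝ E = N) (A : ι → E →ₗ[ℝ] E)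
    (hA : ∀ i, (A i).IsSymmetric) (hc : ∀ i j, Commute (A i) (A j)) :
    ∃ (b : OrthonormalBasis (Fin N) ℝ E) (l : ι → Fin N → ℝ), ∀ i k, A i (b k) = l i k • b k := by
  classical
  have h1 := LinearMap.IsSymmetric.directSum_isInternal_of_pairwise_commute (T := A) hA
    (fun i j _ => hc i j)
  have h2 := LinearMap.IsSymmetric.orthogonalFamily_iInf_eigenspaces (T := A) hA
  set V : (ι → ℝ) → Submodule ℝ E := fun α => ⨅ j, Module.End.eigenspace (A j) (α j) with hV
  have hfin : {i | V i ≠ ⊥}.Finite :=
    WellFoundedGT.finite_ne_bot_of_iSupIndep h1.submodule_iSupIndep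
  have : Fintype {i // V i ≠ ⊥} := hfin.fintype
  have h3 : DirectSum.IsInternal (fun i : {i // V i ≠ ⊥} => V i) :=
    DirectSum.isInternal_ne_bot_iff.2 h1
  have h4 : OrthogonalFamily ℝ (fun i : {i // V i ≠ ⊥} => V i) fun i => (V i).subtypeₗᵢ :=
    h2.comp Subtype.val_injective
  refine ⟨h3.subordinateOrthonormalBasis hN h4,
    fun i k => (h3.subordinateOrthonormalBasisIndex hN k h4).1 i, fun i k => ?_⟩
  have h5 := h3.subordinateOrthonormalBasis_subordinate hN k h4
  exact Module.End.mem_eigenspace_iff.1 ((Submodule.mem_iInf _).1 h5 i)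

/-- slice of a tensor -/
def slc (T : Ten N) (a : Fin N) : Mat N := Matrix.of fun i j => T a i j

theorem slc_symm {T : Ten N} (hT : TSymm T) (a : Fin N) : (slc T a).IsSymm := by
  ext i j
  simp only [slc, transpose_apply, of_apply]
  rw [hT.2 a j i]

/-- commuting slices: orthonormal frame -/
theorem exists_frame {T : Ten N} (hT : TSymm T) (hc : ∀ a b, slc T a * slc T b = slc T b * slc T a) :
    ∃ (u : Fin N → Fin N → ℝ) (l : Fin N → ℝ), (∀ i j, u i ⬝ᵥ u j = if i = j then 1 else 0) ∧
      ∀ a b c, T a b c = ∑ i, l i * (u i a * u i b * u i c) := by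
  classical
  obtain ⟨b, l, hb⟩ := exists_joint (N := N) (E := EuclideanSpace ℝ (Fin N)) (by simp)
    (fun a => Matrix.toEuclideanLin (slc T a)) (fun a => by
      rw [← Matrix.isHermitian_iff_isSymmetric]
      rw [Matrix.IsHermitian, Matrix.conjTranspose_eq_transpose_of_trivial]
      exact slc_symm hT a) (fun i j => by
      show Matrix.toEuclideanLin (slc T i) * Matrix.toEuclideanLin (slc T j) =
        Matrix.toEuclideanLin (slc T j) * Matrix.toEuclideanLin (slc T i)
      apply LinearMap.ext
      intro x
      have h1 := congrArg (fun M : Mat N => WithLp.toLp 2 (M *ᵥ (WithLp.ofLp x))) (hc i j)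
      simp only [← Matrix.mulVec_mulVec] at h1
      exact h1)
  -- coordinates
  set u : Fin N → Fin N → ℝ := fun i => WithLp.ofLp (b i) with hu
  have huu : ∀ i j, u i ⬝ᵥ u j = if i = j then 1 else 0 := by
    intro i j
    have h1 := orthonormal_iff_ite.1 b.orthonormal j i
    rw [EuclideanSpace.inner_eq_star_dotProduct] at h1
    simp only [star_trivial] at h1
    rw [h1]
    by_cases h : i = j
    · simp [h]
    · simp [h, Ne.symm h]
  have huc : ∀ a c, ∑ i, u i a * u i c = if a = c then 1 else 0 := by
    have h1 : (Matrix.of u) * (Matrix.of u)ᵀ = 1 := by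
      ext i j
      rw [Matrix.mul_apply]
      simp only [transpose_apply, of_apply]
      have := huu i j
      unfold dotProduct at this
      rw [this, Matrix.one_apply]
    have h2 := mul_eq_one_comm.1 h1
    intro a c
    have h3 := congrFun (congrFun h2 a) c
    rw [Matrix.mul_apply] at h3
    simp only [transpose_apply, of_apply] at h3
    rw [h3, Matrix.one_apply]
  have hev : ∀ a k j, ∑ m, T a j m * u k m = l a k * u k j := by
    intro a k j
    have h1 := congrArg (fun x : EuclideanSpace ℝ (Fin N) => WithLp.ofLp x j) (hb a k)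
    simpa [Matrix.toEuclideanLin, slc, Matrix.mulVec, dotProduct, hu] using h1
  -- `T[u_p, u_q, ·]`
  set L : Fin N → Fin N → ℝ := fun p q => ∑ a, u p a * l a q with hL
  have h2 : ∀ p q j, ∑ a, ∑ m, u p a * T a j m * u q m = L p q * u q j := by
    intro p q j
    have e1 : ∀ a, ∑ m, u p a * T a j m * u q m = u p a * l a q * u q j := by
      intro a
      have := hev a q j
      calc ∑ m, u p a * T a j m * u q m = u p a * ∑ m, T a j m * u q m := by
            rw [Finset.mul_sum]; exact Finset.sum_congr rfl fun m _ => by ring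
        _ = _ := by rw [this]; ring
    rw [Finset.sum_congr rfl fun a _ => e1 a, ← Finset.sum_mul]
  have h3 : ∀ p q j, L p q * u q j = L q p * u p j := by
    intro p q j
    rw [← h2 p q j, ← h2 q p j, Finset.sum_comm]
    refine Finset.sum_congr rfl fun a _ => Finset.sum_congr rfl fun m _ => ?_
    have : T a j m = T m j a := by rw [hT.2 m j a, hT.1 m a j, hT.2 a m j]
    rw [show T m j a = T a j m from this.symm]
    ring
  have h4 : ∀ p q, p ≠ q → L p q = 0 := by
    intro p q hpq
    have e1 : ∑ j, L p q * u q j * u q j = ∑ j, L q p * u p j * u q j :=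
      Finset.sum_congr rfl fun j _ => by rw [h3 p q j]
    have e2 : ∑ j, L p q * u q j * u q j = L p q := by
      have := huu q q
      unfold dotProduct at this
      rw [if_pos rfl] at this
      calc _ = L p q * ∑ j, u q j * u q j := by
            rw [Finset.mul_sum]; exact Finset.sum_congr rfl fun j _ => by ring
        _ = _ := by rw [this]; ring
    have e3 : ∑ j, L q p * u p j * u q j = 0 := by
      have := huu p q
      unfold dotProduct at this
      rw [if_neg hpq] at this
      calc _ = L q p * ∑ j, u p j * u q j := by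
            rw [Finset.mul_sum]; exact Finset.sum_congr rfl fun j _ => by ring
        _ = _ := by rw [this]; ring
    rw [← e2, e1, e3]
  refine ⟨u, fun i => L i i, huu, fun a j c => ?_⟩
  -- expand in the frame
  have e1 : T a j c = ∑ p, ∑ q, u p a * u q c * (∑ a', ∑ m, u p a' * T a' j m * u q m) := by
    have e2 : ∀ p q, u p a * u q c * (∑ a', ∑ m, u p a' * T a' j m * u q m) =
        ∑ a', ∑ m, (u p a * u p a') * (u q c * u q m) * T a' j m := by
      intro p q
      rw [Finset.mul_sum]
      refine Finset.sum_congr rfl fun a' _ => ?_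
      rw [Finset.mul_sum]
      exact Finset.sum_congr rfl fun m _ => by ring
    simp only [e2]
    have e3 : ∀ p, ∑ q, ∑ a', ∑ m, (u p a * u p a') * (u q c * u q m) * T a' j m =
        ∑ a', (u p a * u p a') * T a' j c := by
      intro p
      rw [Finset.sum_comm]
      refine Finset.sum_congr rfl fun a' _ => ?_
      rw [Finset.sum_comm]
      have : ∀ m, ∑ q, (u p a * u p a') * (u q c * u q m) * T a' j m =
          (u p a * u p a') * T a' j m * (if c = m then 1 else 0) := by
        intro m
        rw [← huc c m, Finset.mul_sum]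
        exact Finset.sum_congr rfl fun q _ => by ring
      simp only [this]
      simp
    simp only [e3]
    rw [Finset.sum_comm]
    have : ∀ a', ∑ p, (u p a * u p a') * T a' j c = T a' j c * (if a = a' then 1 else 0) := by
      intro a'
      rw [← huc a a', Finset.mul_sum]
      exact Finset.sum_congr rfl fun q _ => by ring
    simp only [this]
    simp
  rw [e1]
  simp only [h2]
  refine Finset.sum_congr rfl fun p _ => ?_
  rw [Finset.sum_eq_single p]
  · ring
  · intro q _ hq
    rw [h4 p q (Ne.symm hq)]
    ring
  · intro h; exact absurd (Finset.mem_univ p) h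

end Vale.Agent.P254.EQ
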