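import Vale.Agent.P254.EQ.Norm
import Vale.Agent.P254.H910.ConeNonneg
import Vale.Agent.P254.H910.Orthant

/-!
P254 / P248, equality case (helper953): a normalised extremal cone is an orthant.
-/

open MeasureTheory Filter Topology Matrix Set
open scoped Pointwise

namespace Vale.Agent.P254.EQ

open Vale.Agent.P254.L (Vec Mat Ten TSymm)
open Vale.Agent.P254.Fr (E Mt Pg tl pt I Ev c2 c3 c4 c5 co pg_co muF AF TF KF RF Lin)
open Vale.Agent.P248.NS (Z CC cov)

variable {n : ℕ} {C : Set (E n)} {y : E n}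

theorem nrm_wt (hC : CC C) (hy : P248.NS.Pos C y) (h1 : cov C y = 1) :
    ∃ r, Nrm (wt C y) y r 1 := by
  obtain ⟨r, hw⟩ := cw_wt hC hy
  exact ⟨r, hw, homW_wt hC hy, by rw [← cov_eq_AF hC, h1]⟩

/-- the end of the proof -/
theorem orth_of_ext (hC : CC C) (hy : P248.NS.Pos C y) (h1 : cov C y = 1) (hZ : Z C y = 1)
    (hx : Ext (wt C y) y) :
    ∃ L : Matrix (Fin n) (Fin n) ℝ, IsUnit L ∧ C = {x | ∀ i, 0 ≤ (L *ᵥ x) i} := by
  obtain ⟨r, h⟩ := nrm_wt hC hy h1
  have hT := tsymm_TF (wt C y) 0 0
  obtain ⟨u, hu, hTu⟩ := exists_product hT (MM_eq h hx) (product h hx)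
  have had := ad_zero (n := n) h.cw.a_pos
  -- `⟨u_p, y⟩ = 1`
  have huy : ∀ p, u p ⬝ᵥ y = 1 := by
    intro p
    have e1 : ∑ i, ∑ j, u p i * u p j * ∑ k, y k * TF (wt C y) 0 0 i j k = 2 := by
      simp only [h.yT]
      have : ∀ i, ∑ j, u p i * u p j * (2 * (1 : Mat n) i j) = 2 * (u p i * u p i) := by
        intro i
        rw [Finset.sum_eq_single i]
        · rw [Matrix.one_apply_eq]; ring
        · intro j _ hj; rw [Matrix.one_apply_ne (Ne.symm hj)]; ring
        · intro hi; exact absurd (Finset.mem_univ _) hi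
      simp only [this]
      rw [← Finset.mul_sum]
      have h2 := hu p p
      rw [if_pos rfl] at h2
      unfold dotProduct at h2
      rw [h2, mul_one]
    have e2 : ∑ i, ∑ j, u p i * u p j * ∑ k, y k * TF (wt C y) 0 0 i j k
        = ∑ m, 2 * (u p ⬝ᵥ u m) * (u p ⬝ᵥ u m) * (u m ⬝ᵥ y) := by
      simp only [hTu, dotProduct, Finset.mul_sum, Finset.sum_mul]
      calc ∑ i, ∑ j, ∑ k, ∑ m, u p i * u p j * (y k * (2 * (u m i * u m j * u m k)))
          = ∑ i, ∑ j, ∑ m, ∑ k, u p i * u p j * (y k * (2 * (u m i * u m j * u m k))) :=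
            Finset.sum_congr rfl fun i _ => Finset.sum_congr rfl fun j _ => Finset.sum_comm
        _ = ∑ i, ∑ m, ∑ j, ∑ k, u p i * u p j * (y k * (2 * (u m i * u m j * u m k))) :=
            Finset.sum_congr rfl fun i _ => Finset.sum_comm
        _ = ∑ m, ∑ i, ∑ j, ∑ k, u p i * u p j * (y k * (2 * (u m i * u m j * u m k))) :=
            Finset.sum_comm
        _ = _ := by
          refine Finset.sum_congr rfl fun m _ => ?_
          calc ∑ i, ∑ j, ∑ k, u p i * u p j * (y k * (2 * (u m i * u m j * u m k)))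
              = ∑ i, ∑ k, ∑ j, u p i * u p j * (y k * (2 * (u m i * u m j * u m k))) :=
                Finset.sum_congr rfl fun i _ => Finset.sum_comm
            _ = ∑ k, ∑ i, ∑ j, u p i * u p j * (y k * (2 * (u m i * u m j * u m k))) :=
                Finset.sum_comm
            _ = ∑ k, ∑ j, ∑ i, u p i * u p j * (y k * (2 * (u m i * u m j * u m k))) :=
                Finset.sum_congr rfl fun k _ => Finset.sum_comm
            _ = _ := by
              refine Finset.sum_congr rfl fun k _ => Finset.sum_congr rfl fun j _ =>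
                Finset.sum_congr rfl fun i _ => ?_
              ring
    rw [e2] at e1
    simp only [hu] at e1
    rw [Finset.sum_eq_single p] at e1
    · rw [if_pos rfl] at e1
      linarith
    · intro m _ hm; rw [if_neg (Ne.symm hm)]; ring
    · intro hp; exact absurd (Finset.mem_univ _) hp
  -- the matrix
  set M : Matrix (Fin n) (Fin n) ℝ := Matrix.of u with hM
  have hMM : M * Mᵀ = 1 := by
    ext i j
    rw [Matrix.mul_apply, Matrix.one_apply, ← hu i j]
    rfl
  have hMM' : Mᵀ * M = 1 := mul_eq_one_comm.1 hMM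
  have hdet : M.det * M.det = 1 := by
    have := congrArg Matrix.det hMM
    rwa [Matrix.det_mul, Matrix.det_transpose, Matrix.det_one] at this
  have hd0 : M.det ≠ 0 := fun h0 => by rw [h0, zero_mul] at hdet; exact zero_ne_one hdet
  have habs : |M.det| = 1 := by
    have h2 : |M.det| * |M.det| = 1 := by rw [abs_mul_abs_self, hdet]
    nlinarith [abs_nonneg M.det]
  have hMy : M *ᵥ y = 1 := by
    funext i
    exact huy i
  have hyM : Mᵀ *ᵥ 1 = y := by
    rw [← hMy, Matrix.mulVec_mulVec, hMM', Matrix.one_mulVec]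
  refine ⟨M, (Matrix.isUnit_iff_isUnit_det M).2 (isUnit_iff_ne_zero.2 hd0), ?_⟩
  refine H910.eq_orth hC hd0 ?_ ?_
  swap
  · rw [hyM, hZ, habs, inv_one]
  · -- `C` is contained in the orthant
    intro x hxC p
    have hI : ∀ φ : E n → ℝ, ∫ x, φ x * R304.limDens 0 (-y) C x = Ev (wt C y) 0 0 φ := by
      intro φ
      unfold Ev
      rw [I_wt_one hC, sub_zero, hZ, div_one, I_wt_zero, wt_eq]
    have hm : Ev (wt C y) 0 0 (lf (u p)) = 1 := by
      rw [lin_lf (lin_Ev h.cw had)]
      simp only [h.Ev_co]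
      exact huy p
    have hc2 : c2 (wt C y) 0 0 (lf (u p)) (lf (u p)) = 1 := by
      rw [lin_lf (lin_c2 h.cw had (pg_lf (u p)))]
      have e1 : ∀ k, c2 (wt C y) 0 0 (lf (u p)) (co k) = u p k := by
        intro k
        rw [Fr.c2_comm, lin_lf (lin_c2 h.cw had (pg_co k))]
        simp only [h.c2_co]
        simp [Matrix.one_apply]
      simp only [e1]
      have h2 := hu p p
      rw [if_pos rfl] at h2
      exact h2
    have hc3 : c3 (wt C y) 0 0 (lf (u p)) (lf (u p)) (lf (u p)) = 2 := by
      have e3 : ∀ i j, c3 (wt C y) 0 0 (co i) (co j) (lf (u p))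
          = ∑ k, u p k * TF (wt C y) 0 0 i j k := fun i j =>
        lin_lf (lin_c3 h.cw had (pg_co i) (pg_co j)) (u p)
      have e2 : ∀ i, c3 (wt C y) 0 0 (co i) (lf (u p)) (lf (u p))
          = ∑ j, u p j * ∑ k, u p k * TF (wt C y) 0 0 i j k := by
        intro i
        rw [lin_lf (lin_c3 h.cw had (pg_co i) (pg_lf (u p)))]
        refine Finset.sum_congr rfl fun j _ => ?_
        rw [← e3 i j, Fr.c3_swap23]
      have e1 : c3 (wt C y) 0 0 (lf (u p)) (lf (u p)) (lf (u p))
          = ∑ i, u p i * ∑ j, u p j * ∑ k, u p k * TF (wt C y) 0 0 i j k := by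
        rw [lin_lf (lin_c3 h.cw had (pg_lf (u p)) (pg_lf (u p)))]
        refine Finset.sum_congr rfl fun i _ => ?_
        rw [← e2 i, Fr.c3_swap23, Fr.c3_swap12]
      rw [e1]
      have e4 : ∀ i j, ∑ k, u p k * TF (wt C y) 0 0 i j k = 2 * (u p i * u p j) := by
        intro i j
        simp only [hTu, Finset.mul_sum]
        rw [Finset.sum_comm]
        have e5 : ∀ m, ∑ k, u p k * (2 * (u m i * u m j * u m k))
            = 2 * (u m i * u m j) * (u p ⬝ᵥ u m) := by
          intro m
          unfold dotProduct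
          rw [Finset.mul_sum]
          exact Finset.sum_congr rfl fun k _ => by ring
        simp only [e5, hu]
        rw [Finset.sum_eq_single p]
        · rw [if_pos rfl, mul_one]
        · intro m _ hm; rw [if_neg (Ne.symm hm), mul_zero]
        · intro hp; exact absurd (Finset.mem_univ _) hp
      simp only [e4]
      have e6 : ∀ i, ∑ j, u p j * (2 * (u p i * u p j)) = 2 * u p i := by
        intro i
        have h2 := hu p p
        rw [if_pos rfl] at h2
        unfold dotProduct at h2
        calc ∑ j, u p j * (2 * (u p i * u p j)) = 2 * u p i * ∑ j, u p j * u p j := by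
              rw [Finset.mul_sum]
              exact Finset.sum_congr rfl fun k _ => by ring
          _ = _ := by rw [h2, mul_one]
      simp only [e6]
      have h2 := hu p p
      rw [if_pos rfl] at h2
      unfold dotProduct at h2
      calc ∑ i, u p i * (2 * u p i) = 2 * ∑ j, u p j * u p j := by
            rw [Finset.mul_sum]
            exact Finset.sum_congr rfl fun k _ => by ring
        _ = _ := by rw [h2, mul_one]
    have q2 : Ev (wt C y) 0 0 (fun x => lf (u p) x * lf (u p) x) = 2 := by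
      rw [Fr.Ev_prod, hm, hc2]; norm_num
    have q3 : Ev (wt C y) 0 0 (fun x => lf (u p) x * (lf (u p) x * lf (u p) x)) = 6 := by
      have e1 := Fr.Ev_prod (wt C y) 0 0 (lf (u p)) (fun x => lf (u p) x * lf (u p) x)
      rw [e1, Fr.c2_prod, hc3, hc2, hm, q2]
      norm_num
    refine H910.cone_nonneg hC hy (e := u p) ?_ ?_ ?_ x hxC
    · rw [hI, hZ]; exact hm
    · rw [hI (fun x => (u p ⬝ᵥ x) ^ 2), hZ, mul_one, ← q2]
      congr 1
      funext x
      unfold lf
      ring
    · rw [hI (fun x => (u p ⬝ᵥ x) ^ 3), hZ, mul_one, ← q3]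
      congr 1
      funext x
      unfold lf
      ring

/-- **the equality case of `det cov ≤ Z²`**, from the data at normalised extremal cones -/
theorem eqSharp (h : ∀ (N : ℕ) (C : Set (Fin N → ℝ)), CC C → ∀ y, P248.NS.Pos C y →
    cov C y = 1 → Z C y = 1 → Ext (wt C y) y) : Vale.Agent.P248.H551.EqSharp :=
  eqSharp_of fun N C hC y hy h1 h2 => orth_of_ext hC hy h1 h2 (h N C hC y hy h1 h2)

/-- the field `hb` of `Ext` -/
theorem hb_of_sharp (hS : Vale.Agent.P248.H551.Sharp) (hC : CC C) (hy : P248.NS.Pos C y)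
    (hZ : Z C y = 1) (e : E n) : ∀ᶠ t in 𝓝 (0 : ℝ), Real.log (AF (wt C y) 0 (t • e)).det
      ≤ 2 * (Real.log (I (wt C y) 0 (t • e) (fun _ => 1))
        - Real.log (I (wt C y) 0 0 (fun _ => 1))) := by
  obtain ⟨r, hr, h⟩ := hy
  filter_upwards [small hr e] with t ht
  have hpos : P248.NS.Pos C (y - t • e) := by
    refine ⟨r / 2, half_pos hr, fun z hz => ?_⟩
    have h1 := h z hz
    have h2 := (abs_le.1 (abs_dot_le_n1 (t • e) z)).2
    have h3 := mul_le_mul_of_nonneg_right ht.le (norm_nonneg z)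
    rw [sub_dotProduct]
    linarith
  have h1 := hS _ C hC _ hpos
  have h2 := (Vale.Agent.P248.NS.T8.cov_posDef hC hpos).det_pos
  rw [AF_wt hC, I_wt_one hC, I_wt_one hC, sub_zero, hZ, Real.log_one, sub_zero]
  calc Real.log (cov C (y - t • e)).det ≤ Real.log (Z C (y - t • e) ^ 2) := Real.log_le_log h2 h1
    _ = 2 * Real.log (Z C (y - t • e)) := by rw [Real.log_pow]; norm_num

end Vale.Agent.P254.EQ
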