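import Vale.Agent.P254.EQ.End5
import Vale.Agent.P248.H551.B4d
import Vale.Agent.P248.H551.Prof0
import Vale.Agent.P248.H551.FromNice

/-!
P254 / P248, equality case (helper953): `StX` gives `EqSharp`.
-/

open MeasureTheory Filter Topology Matrix Set
open scoped Pointwise

namespace Vale.Agent.P254.EQ

open Vale.Agent.P254.L (Vec Mat Ten TSymm J1 J2 N3 NN Profile WProfile StX)
open Vale.Agent.P254.Fr (E Mt Pg tl pt I Ev c2 c3 c4 c5 co pg_co muF AF TF KF RF Lin)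
open Vale.Agent.P248.NS (Z CC cov)
open Vale.Agent.P248.H551 (Prof0 W0 P_cone D_cone DD_limDens)

variable {n : ℕ} {C : Set (E n)} {y : E n}

theorem pos_small {r : ℝ} (hr : 0 < r) (h : ∀ z ∈ C, r * ‖z‖ ≤ y ⬝ᵥ z) (e : E n) :
    ∀ᶠ t in 𝓝 (0 : ℝ), ∀ z ∈ C, (-y + t • e) ⬝ᵥ z ≤ 0 - r / 2 * ‖z‖ := by
  filter_upwards [small hr e] with t ht z hz
  have h1 := h z hz
  have h2 := (abs_le.1 (abs_dot_le_n1 (t • e) z)).2
  have h3 := mul_le_mul_of_nonneg_right ht.le (norm_nonneg z)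
  rw [add_dotProduct, neg_dotProduct]
  linarith

theorem hc_of {F : Profile} (hX : StX F) (hp : Prof0 F) (hC : CC C) (hy : P248.NS.Pos C y)
    (e : E n) : ∀ᶠ t in 𝓝 (0 : ℝ), ∀ P : Mt n, P.PosSemidef →
      NN P (TF (wt C y) 0 (t • e)) (TF (wt C y) 0 (t • e))
        ≤ 4 * ((AF (wt C y) 0 (t • e) * P) ^ 3).trace := by
  obtain ⟨r, hr, h⟩ := hy
  obtain ⟨δ, hδ, hP⟩ := P_cone hX hp one_pos
  filter_upwards [pos_small hr h e] with t ht P hPP
  have h1 := hP n C (-y) (t • e) 0 Matrix.PosSemidef.zero hC.closed hC.conv hC.int (r / 2) 0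
    (half_pos hr) ht (by rw [Matrix.zero_mul, Matrix.trace_zero]; exact hδ) P hPP
  rw [Matrix.mul_zero, Matrix.zero_mul, smul_zero, sub_zero] at h1
  rw [wt_eq]
  exact h1

/-- `A(s) → 1` -/
theorem tendsto_A {r : ℝ} (h : Nrm (wt C y) y r 1) (i j : Fin n) :
    Tendsto (fun s : ℝ => AF (wt C y) (s • 1) 0 i j) (𝓝[>] 0) (𝓝 ((1 : Mat n) i j)) := by
  have h1 := (h.sA i j).continuousWithinAt
  have h2 : Tendsto (fun s : ℝ => AF (wt C y) (s • 1) 0 i j) (𝓝[Ici 0] 0)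
      (𝓝 (AF (wt C y) ((0 : ℝ) • 1) 0 i j)) := h1
  rw [zero_smul, h.one] at h2
  exact h2.mono_left (nhdsWithin_mono _ Ioi_subset_Ici_self)

theorem tendsto_pow {α : Type*} {l : Filter α} {A : α → Mat n}
    (h : ∀ i j, Tendsto (fun s => A s i j) l (𝓝 ((1 : Mat n) i j))) (k : ℕ) (i j : Fin n) :
    Tendsto (fun s => (A s ^ k) i j) l (𝓝 ((1 : Mat n) i j)) := by
  induction k generalizing i j with
  | zero => simp only [pow_zero]; exact tendsto_const_nhds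
  | succ k ih =>
    simp only [pow_succ, Matrix.mul_apply]
    have h1 : Tendsto (fun s => ∑ m, (A s ^ k) i m * A s m j) l
        (𝓝 (∑ m, (1 : Mat n) i m * (1 : Mat n) m j)) :=
      tendsto_finsetSum _ fun m _ => (ih i m).mul (h m j)
    have h2 : ∑ m, (1 : Mat n) i m * (1 : Mat n) m j = (1 : Mat n) i j := by
      rw [← Matrix.mul_apply, Matrix.one_mul]
    rwa [h2] at h1

theorem tendsto_trace {α : Type*} {l : Filter α} {A : α → Mat n}
    (h : ∀ i j, Tendsto (fun s => A s i j) l (𝓝 ((1 : Mat n) i j))) (k : ℕ) :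
    Tendsto (fun s => (A s ^ k).trace) l (𝓝 n) := by
  have h1 : Tendsto (fun s => ∑ i, (A s ^ k) i i) l (𝓝 (∑ i, (1 : Mat n) i i)) :=
    tendsto_finsetSum _ fun i _ => tendsto_pow h k i i
  simp only [Matrix.one_apply_eq, Finset.sum_const, Finset.card_univ, Fintype.card_fin,
    nsmul_eq_mul, mul_one] at h1
  exact h1

theorem cube_expand (A : Mat n) (u : ℝ) :
    ((A - u • (A * A)) ^ 3).trace = (A ^ 3).trace - 3 * u * (A ^ 4).trace
      + 3 * u ^ 2 * (A ^ 5).trace - u ^ 3 * (A ^ 6).trace := by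
  have e : (A - u • (A * A)) ^ 3 = A ^ 3 - (3 * u) • A ^ 4 + (3 * u ^ 2) • A ^ 5
      - u ^ 3 • A ^ 6 := by
    simp only [pow_succ, pow_zero, one_mul, sub_mul, mul_sub, smul_mul_assoc, mul_smul_comm,
      smul_sub, smul_smul, mul_assoc]
    module
  rw [e, Matrix.trace_sub, Matrix.trace_add, Matrix.trace_sub]
  simp only [Matrix.trace_smul, smul_eq_mul]

theorem trace_six_nonneg {A : Mat n} (hA : Aᵀ = A) : 0 ≤ (A ^ 6).trace := by
  have e : A ^ 6 = A ^ 3 * (A ^ 3)ᵀ := by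
    rw [Matrix.transpose_pow, hA, ← pow_add]
  rw [e]
  exact trace_mul_transpose_nonneg _

theorem hd_of {F : Profile} (hX : StX F) (hp : Prof0 F) (hC : CC C) (hy : P248.NS.Pos C y)
    (h1 : cov C y = 1) {ε : ℝ} (hε : 0 < ε) : ∀ᶠ s in 𝓝[>] (0 : ℝ),
      ∑ i, ∑ j, ∑ k, TF (wt C y) (s • 1) 0 i j k ^ 2
        ≤ 4 * ((AF (wt C y) (s • 1) 0) ^ 3).trace
          - (24 - ε) * s * ((AF (wt C y) (s • 1) 0) ^ 4).trace := by
  obtain ⟨r, hN⟩ := nrm_wt hC hy h1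
  rcases Nat.eq_zero_or_pos n with hn | hn
  · subst hn
    refine Eventually.of_forall fun s => ?_
    simp [Matrix.trace]
  obtain ⟨r', hr, h⟩ := hy
  set ε' : ℝ := min (ε / 24) 1 with hε'
  have hε'0 : 0 < ε' := lt_min (by positivity) one_pos
  have hε'1 : ε' ≤ 1 := min_le_right _ _
  have hε'2 : ε' ≤ ε / 24 := min_le_left _ _
  obtain ⟨δ, hδ, hP⟩ := P_cone hX hp hε'0
  have hA := tendsto_A hN
  have t1 := tendsto_trace hA 1
  have t4 := tendsto_trace hA 4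
  have t5 := tendsto_trace hA 5
  have ts : Tendsto (fun s : ℝ => s) (𝓝[>] 0) (𝓝 0) := tendsto_id'.2 nhdsWithin_le_nhds
  have e1 : ∀ᶠ s in 𝓝[>] (0 : ℝ), s * ((AF (wt C y) (s • 1) 0) ^ 1).trace < δ := by
    have := ts.mul t1
    rw [zero_mul] at this
    exact this.eventually (gt_mem_nhds hδ)
  have e2 : ∀ᶠ s in 𝓝[>] (0 : ℝ), 48 * s * ((AF (wt C y) (s • 1) 0) ^ 5).trace
      < ε / 2 * ((AF (wt C y) (s • 1) 0) ^ 4).trace := by
    have h3 := (ts.const_mul 48).mul t5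
    have h4 := t4.const_mul (ε / 2)
    have h5 : Tendsto (fun s => ε / 2 * ((AF (wt C y) (s • 1) 0) ^ 4).trace
        - 48 * s * ((AF (wt C y) (s • 1) 0) ^ 5).trace) (𝓝[>] 0) (𝓝 (ε / 2 * n - 48 * 0 * n)) :=
      h4.sub h3
    have h6 : 0 < ε / 2 * n - 48 * 0 * (n : ℝ) := by
      have : (0 : ℝ) < n := Nat.cast_pos.2 hn
      simp only [mul_zero, zero_mul, sub_zero]
      positivity
    filter_upwards [h5.eventually (lt_mem_nhds h6)] with s hs
    linarith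
  have e3 : ∀ᶠ s in 𝓝[>] (0 : ℝ), 0 < ((AF (wt C y) (s • 1) 0) ^ 4).trace :=
    t4.eventually (lt_mem_nhds (Nat.cast_pos.2 hn))
  filter_upwards [e1, e2, e3, self_mem_nhdsWithin] with s h2 h3 h4 hs
  have hs0 : 0 < s := hs
  have hpd : (s • (1 : Mat n)).PosSemidef := Matrix.PosSemidef.one.smul hs0.le
  have h5 := hP n C (-y) 0 (s • 1) hpd hC.closed hC.conv hC.int r' 0 hr
    (fun z hz => by rw [add_zero, neg_dotProduct]; have := h z hz; linarith)
    (by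
      rw [Matrix.smul_mul, Matrix.one_mul, Matrix.trace_smul, smul_eq_mul, ← wt_eq]
      rwa [pow_one] at h2) 1 Matrix.PosSemidef.one
  rw [← wt_eq, Matrix.mul_one, Matrix.mul_smul, Matrix.mul_one, Matrix.smul_mul, smul_smul,
    cube_expand] at h5
  have h6 := trace_six_nonneg (transpose_AF (wt C y) (s • 1) 0)
  have h7 : NN 1 (TF (wt C y) (s • 1) 0) (TF (wt C y) (s • 1) 0)
      = ∑ i, ∑ j, ∑ k, TF (wt C y) (s • 1) 0 i j k ^ 2 := by
    show N3 1 1 1 _ _ = _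
    rw [N3_one]
    simp only [pow_two]
  rw [h7] at h5
  refine h5.trans ?_
  set T4 := ((AF (wt C y) (s • 1) 0) ^ 4).trace
  set T5 := ((AF (wt C y) (s • 1) 0) ^ 5).trace
  set T6 := ((AF (wt C y) (s • 1) 0) ^ 6).trace
  set T3' := ((AF (wt C y) (s • 1) 0) ^ 3).trace
  set u := (2 - ε') * s with hu
  have hu0 : 0 ≤ u := mul_nonneg (by linarith) hs0.le
  have hu2 : u ≤ 2 * s := by rw [hu]; nlinarith
  have h8 : 0 ≤ u ^ 3 * T6 := mul_nonneg (pow_nonneg hu0 3) h6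
  -- `12 u² T5 ≤ 48 s² T5 < ε/2 s T4`
  have hT5 : 0 ≤ T5 ∨ T5 < 0 := le_or_gt _ _
  have h9 : 12 * u ^ 2 * T5 ≤ ε / 2 * s * T4 := by
    rcases hT5 with h0 | h0
    · have h10 : u ^ 2 ≤ 4 * s ^ 2 := by nlinarith
      have h11 : 12 * u ^ 2 * T5 ≤ 48 * s ^ 2 * T5 := by nlinarith
      nlinarith
    · have h10 : 12 * u ^ 2 * T5 ≤ 0 := mul_nonpos_of_nonneg_of_nonpos (by positivity) h0.le
      have h11 : 0 ≤ ε / 2 * s * T4 := by positivity
      linarith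
  have h12 : ε' * s * T4 ≤ ε / 24 * s * T4 := by
    have : 0 < s * T4 := mul_pos hs0 h4
    nlinarith
  nlinarith

theorem ha_of {F : Profile} (W : WProfile F) (hX : StX F) (hw : W0 W) (hC : CC C)
    (hy : P248.NS.Pos C y) (h1 : cov C y = 1) (hZ : Z C y = 1) {ε : ℝ} (hε : 0 < ε) :
    ∀ᶠ s in 𝓝[>] (0 : ℝ), entC (wt C y) y 0 + (1 - ε) * s * (AF (wt C y) (s • 1) 0).trace
      ≤ entC (wt C y) y s - 1 / 2 * Real.log (AF (wt C y) (s • 1) 0).det := by
  obtain ⟨r, hN⟩ := nrm_wt hC hy h1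
  obtain ⟨r', hr, h⟩ := hy
  obtain ⟨δ, hδ, hD⟩ := D_cone W hX hw hε
  have hA := tendsto_A hN
  have t1 := tendsto_trace hA 1
  have ts : Tendsto (fun s : ℝ => s) (𝓝[>] 0) (𝓝 0) := tendsto_id'.2 nhdsWithin_le_nhds
  have e1 : ∀ᶠ s in 𝓝[>] (0 : ℝ), s * ((AF (wt C y) (s • 1) 0) ^ 1).trace < δ := by
    have := ts.mul t1
    rw [zero_mul] at this
    exact this.eventually (gt_mem_nhds hδ)
  have e0 : entC (wt C y) y 0 = n := by
    unfold entC
    rw [zero_smul, I_wt_one hC, sub_zero, hZ, Real.log_one, hN.hom.e0 hN.cw]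
    ring
  filter_upwards [e1, self_mem_nhdsWithin] with s h2 hs
  have hs0 : 0 < s := hs
  have hpd : (s • (1 : Mat n)).PosSemidef := Matrix.PosSemidef.one.smul hs0.le
  have hdec : ∀ z ∈ C, (-y + 0) ⬝ᵥ z ≤ 0 - r' * ‖z‖ := fun z hz => by
    rw [add_zero, neg_dotProduct]; have := h z hz; linarith
  have h5 := hD n C (-y) 0 (s • 1) hpd hC.closed hC.conv hC.int r' 0 hr hdec
    (by
      rw [Matrix.smul_mul, Matrix.one_mul, Matrix.trace_smul, smul_eq_mul, ← wt_eq]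
      rwa [pow_one] at h2)
  rw [DD_limDens hpd hC.closed hC.int hr hdec, ← wt_eq, Matrix.smul_mul, Matrix.one_mul,
    Matrix.trace_smul, smul_eq_mul] at h5
  have hAd : Ad r (s • (1 : Mat n)) (0 : E n) :=
    ⟨fun x => Fr.nonneg_of_psd hpd x, by unfold n1; simp; linarith [hN.cw.a_pos]⟩
  have q1 : ∑ i, (-y + 0) i * Ev (wt C y) (s • 1) 0 (co i) = - Ev (wt C y) (s • 1) 0 (lf y) := by
    rw [lin_lf (lin_Ev hN.cw hAd), ← Finset.sum_neg_distrib]
    refine Finset.sum_congr rfl fun i _ => ?_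
    rw [add_zero, Pi.neg_apply]
    ring
  have q2 : ∑ i, ∑ j, (s • (1 : Mat n)) i j * Ev (wt C y) (s • 1) 0 (fun x => co i x * co j x)
      = s * Ev (wt C y) (s • 1) 0 (fun x => x ⬝ᵥ x) := by
    have e6 : (fun x : E n => x ⬝ᵥ x) = fun x => x ⬝ᵥ (1 : Mt n) *ᵥ x := by
      simp only [Matrix.one_mulVec]
    rw [e6, (lin_Ev hN.cw hAd).quad, Finset.mul_sum]
    refine Finset.sum_congr rfl fun i _ => ?_
    rw [Finset.mul_sum]
    refine Finset.sum_congr rfl fun j _ => ?_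
    rw [Matrix.smul_apply, smul_eq_mul, mul_assoc]
    rfl
  rw [q1, q2] at h5
  rw [e0]
  unfold entC
  linarith

/-- the data at a normalised extremal cone -/
theorem ext_of {F : Profile} (W : WProfile F) (hX : StX F) (hp : Prof0 F) (hw : W0 W)
    (hS : Vale.Agent.P248.H551.Sharp) (hC : CC C) (hy : P248.NS.Pos C y) (h1 : cov C y = 1)
    (hZ : Z C y = 1) : Ext (wt C y) y where
  hb := hb_of_sharp hS hC hy hZ
  ha := fun _ hε => ha_of W hX hw hC hy h1 hZ hε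
  hc := hc_of hX hp hC hy
  hd := fun _ hε => hd_of hX hp hC hy h1 hε

/-- **the equality case from `StX`** -/
theorem eqSharp_of_stX {F : Profile} (W : WProfile F) (hX : StX F) (hp : Prof0 F) (hw : W0 W)
    (hS : Vale.Agent.P248.H551.Sharp) : Vale.Agent.P248.H551.EqSharp :=
  eqSharp fun _ _ hC _ hy h1 h2 => ext_of W hX hp hw hS hC hy h1 h2

end Vale.Agent.P254.EQ
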