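import Vale.Agent.P254.EQ.CCum

/-!
P254 / P248, equality case (helper953), block B5: contraction identities of the cumulants of a
homogeneous weight `1_C exp (-⟨y, x⟩)`.
-/

open MeasureTheory Filter Topology Matrix

namespace Vale.Agent.P254.EQ

open Vale.Agent.P254.Fr (E Mt Pg tl pt I Ev c2 c3 c4 c5 co pg_co muF AF TF KF RF Lin)

variable {n : ℕ} {w : E n → ℝ} {a C : ℝ} {y : E n}

/-- homogeneous functions of polynomial growth -/
structure Hg (k : ℕ) (φ : E n → ℝ) : Prop where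
  pg : Pg φ
  hom : ∀ t : ℝ, 0 < t → ∀ x, φ (t • x) = t ^ k * φ x

theorem Hg.co (i : Fin n) : Hg 1 (co i) := ⟨pg_co i, fun t _ x => by simp [Fr.co]⟩

theorem Hg.one : Hg (n := n) 0 (fun _ => 1) := ⟨Pg.const 1, fun t _ x => by simp⟩

theorem Hg.mul {k l : ℕ} {f g : E n → ℝ} (hf : Hg k f) (hg : Hg l g) :
    Hg (k + l) (fun x => f x * g x) :=
  ⟨hf.pg.mul hg.pg, fun t ht x => by
    rw [hf.hom t ht x, hg.hom t ht x, pow_add]; ring⟩

/-- the linear form -/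
def lf (y : E n) : E n → ℝ := fun x => y ⬝ᵥ x

theorem pg_lf (y : E n) : Pg (lf y) := Pg.dot y

/-- the weight is `1_C exp (-⟨y, x⟩)` with a cone `C` (consequence) -/
def HomW (w : E n → ℝ) (y : E n) : Prop := ∀ (k : ℕ) (φ : E n → ℝ), Hg k φ →
  Ev w 0 0 (fun x => φ x * lf y x) = (n + k) * Ev w 0 0 φ

theorem HomW.e0 (h : HomW w y) (hw : CW w a C) : Ev w 0 0 (lf y) = n := by
  have h1 := h 0 _ Hg.one
  rw [Ev_one hw (ad_zero hw.a_pos)] at h1
  simp only [one_mul, Nat.cast_zero, add_zero, mul_one] at h1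
  exact h1

theorem HomW.e2 (h : HomW w y) (hw : CW w a C) {k : ℕ} {f : E n → ℝ} (hf : Hg k f) :
    c2 w 0 0 f (lf y) = k * Ev w 0 0 f := by
  unfold c2
  rw [h k f hf, h.e0 hw]
  ring

theorem HomW.e3 (h : HomW w y) (hw : CW w a C) {k l : ℕ} {f g : E n → ℝ} (hf : Hg k f)
    (hg : Hg l g) : c3 w 0 0 f g (lf y) = (k + l) * c2 w 0 0 f g := by
  unfold c3
  rw [h.e2 hw (hf.mul hg), h.e2 hw hf, h.e2 hw hg]
  unfold c2
  push_cast
  ring

theorem HomW.e4 (h : HomW w y) (hw : CW w a C) {k l m : ℕ} {f g u : E n → ℝ} (hf : Hg k f)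
    (hg : Hg l g) (hu : Hg m u) : c4 w 0 0 f g u (lf y) = (k + l + m) * c3 w 0 0 f g u := by
  unfold c4
  rw [h.e3 hw (hf.mul hg) hu, h.e3 hw hf hu, h.e2 hw hg, h.e2 hw hf, h.e3 hw hg hu]
  unfold c3
  push_cast
  ring

theorem HomW.e5 (h : HomW w y) (hw : CW w a C) {k l m r : ℕ} {f g u v : E n → ℝ} (hf : Hg k f)
    (hg : Hg l g) (hu : Hg m u) (hv : Hg r v) :
    c5 w 0 0 f g u v (lf y) = (k + l + m + r) * c4 w 0 0 f g u v := by
  unfold c5
  rw [h.e4 hw (hf.mul hg) hu hv, h.e4 hw hf hu hv, h.e2 hw hg, h.e3 hw hf hu, h.e3 hw hg hv,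
    h.e3 hw hf hv, h.e3 hw hg hu, h.e2 hw hf, h.e4 hw hg hu hv]
  unfold c4
  push_cast
  ring

/-- contraction with `y` -/
theorem lin_lf {L : (E n → ℝ) → ℝ} (hL : Lin L) (y : E n) :
    L (lf y) = ∑ k, y k * L (co k) := hL.dot y

section contr

theorem HomW.mu (h : HomW w y) (hw : CW w a C) : ∑ k, y k * muF w 0 0 k = n := by
  rw [← h.e0 hw, lin_lf (lin_Ev hw (ad_zero hw.a_pos)) y]
  rfl

theorem HomW.A (h : HomW w y) (hw : CW w a C) (i : Fin n) :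
    ∑ k, y k * AF w 0 0 i k = muF w 0 0 i := by
  have h1 := h.e2 hw (Hg.co i)
  rw [lin_lf (lin_c2 hw (ad_zero hw.a_pos) (pg_co i)) y] at h1
  simp only [Nat.cast_one, one_mul] at h1
  exact h1

theorem HomW.T (h : HomW w y) (hw : CW w a C) (i j : Fin n) :
    ∑ k, y k * TF w 0 0 i j k = 2 * AF w 0 0 i j := by
  have h1 := h.e3 hw (Hg.co i) (Hg.co j)
  rw [lin_lf (lin_c3 hw (ad_zero hw.a_pos) (pg_co i) (pg_co j)) y] at h1
  norm_num at h1
  exact h1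

theorem HomW.K (h : HomW w y) (hw : CW w a C) (i j k : Fin n) :
    ∑ l, y l * KF w 0 0 i j k l = 3 * TF w 0 0 i j k := by
  have h1 := h.e4 hw (Hg.co i) (Hg.co j) (Hg.co k)
  rw [lin_lf (lin_c4 hw (ad_zero hw.a_pos) (pg_co i) (pg_co j) (pg_co k)) y] at h1
  norm_num at h1
  exact h1

end contr

end Vale.Agent.P254.EQ
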