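import Vale.Agent.P254.Z546.Jet
import Vale.Agent.P254.MP.ContactP
import Vale.Agent.P254.Frame829.Mom
import Vale.Agent.P254.EQ.Alg5

/-!
P254 / P248, equality case (helper953), block B5: matrix jets at the identity.
-/

open Filter Topology Matrix Asymptotics Set

namespace Vale.Agent.P254.EQ

open Vale.Agent.P254.L (Vec Mat Ten TSymm J1 J2 N3 NN Phi)

variable {n : ℕ}

/-- matrices near the identity are positive definite -/
theorem posDef_near {A : Mat n} (hs : Aᵀ = A) (h : ∑ i, ∑ j, |(A - 1) i j| < 1) : A.PosDef := by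
  refine Matrix.PosDef.of_dotProduct_mulVec_pos ?_ fun x hx => ?_
  · rw [Matrix.IsHermitian, Matrix.conjTranspose_eq_transpose_of_trivial]; exact hs
  · have h1 := Fr.abs_quad_le (A - 1) x
    have h2 := (abs_le.1 h1).1
    rw [Matrix.sub_mulVec, Matrix.one_mulVec, dotProduct_sub] at h2
    have h3 : 0 < x ⬝ᵥ x := by
      have := dotProduct_star_self_pos_iff (v := x) |>.2 hx
      simpa using this
    simp only [star_trivial]
    nlinarith

theorem posDef_ev {l : Filter ℝ} {A : ℝ → Mat n} (hs : ∀ᶠ t in l, (A t)ᵀ = A t)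
    (h : ∀ i j, Tendsto (fun t => A t i j) l (𝓝 ((1 : Mat n) i j))) :
    ∀ᶠ t in l, (A t).PosDef := by
  have h1 : Tendsto (fun t => ∑ i, ∑ j, |(A t - 1) i j|) l (𝓝 (∑ _i : Fin n, ∑ _j : Fin n, 0)) := by
    refine tendsto_finsetSum _ fun i _ => tendsto_finsetSum _ fun j _ => ?_
    have h2 := ((h i j).sub_const ((1 : Mat n) i j)).abs
    rw [sub_self, abs_zero] at h2
    exact h2
  simp only [Finset.sum_const_zero] at h1
  filter_upwards [h1.eventually (gt_mem_nhds one_pos), hs] with t ht hst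
  exact posDef_near hst ht

/-- one-sided Jacobi formula -/
theorem det_within {N : ℝ → Mat n} {N' : Mat n} {S : Set ℝ} {t : ℝ}
    (hN : ∀ i j, HasDerivWithinAt (fun s => N s i j) (N' i j) S t) :
    HasDerivWithinAt (fun t => (N t).det) ((N t).adjugate * N').trace S t := by
  have e1 : ∑ σ : Equiv.Perm (Fin n), (Equiv.Perm.sign σ : ℤ) •
      ∑ i, (∏ j ∈ Finset.univ.erase i, N t (σ j) j) * N' (σ i) i =
      ((N t).adjugate * N').trace := by
    simp only [Finset.smul_sum]
    rw [Finset.sum_comm]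
    rw [Matrix.trace]
    refine Finset.sum_congr rfl fun i _ => ?_
    have h1 : ((N t).adjugate * N').diag i = ((N t).updateCol i (fun j => N' j i)).det := by
      rw [← Matrix.cramer_apply, Matrix.cramer_eq_adjugate_mulVec]
      simp only [diag, Matrix.mul_apply, mulVec, dotProduct]
    rw [h1, Matrix.det_apply]
    refine Finset.sum_congr rfl fun σ _ => ?_
    have : ∏ k, ((N t).updateCol i (fun j => N' j i)) (σ k) k =
        (∏ j ∈ Finset.univ.erase i, N t (σ j) j) * N' (σ i) i := by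
      rw [← Finset.prod_erase_mul Finset.univ _ (Finset.mem_univ i)]
      congr 1
      · refine Finset.prod_congr rfl fun j hj => ?_
        rw [Matrix.updateCol_ne (Finset.ne_of_mem_erase hj)]
      · simp
    rw [this]
    rfl
  rw [← e1]
  have h1 : ∀ t, (N t).det =
      ∑ σ : Equiv.Perm (Fin n), (Equiv.Perm.sign σ : ℤ) • ∏ i, N t (σ i) i := by
    intro t
    rw [Matrix.det_apply]
    rfl
  simp only [h1]
  refine HasDerivWithinAt.fun_sum (fun σ _ => ?_)
  have h2 := HasDerivWithinAt.fun_finsetProd (u := Finset.univ) (x := t)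
    (f := fun i t => N t (σ i) i) (f' := fun i => N' (σ i) i) (fun i _ => hN (σ i) i)
  simp only [smul_eq_mul] at h2
  exact h2.const_smul ((Equiv.Perm.sign σ : ℤ))

/-- first order one-sided jet of `log det` at the identity -/
theorem logdet_jet1 {A : ℝ → Mat n} {X : Mat n} {S : Set ℝ} (h0 : A 0 = 1)
    (hN : ∀ i j, HasDerivWithinAt (fun s => A s i j) (X i j) S 0) :
    J1 (𝓝[S] 0) (fun s => Real.log (A s).det) 0 X.trace := by
  have h1 := det_within hN
  rw [h0, Matrix.adjugate_one, Matrix.one_mul] at h1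
  have h2 := h1.log (by rw [h0, Matrix.det_one]; exact one_ne_zero)
  rw [h0, Matrix.det_one, div_one] at h2
  have h3 := J1.of_hasDerivWithinAt h2
  simp only [h0, Matrix.det_one, Real.log_one] at h3
  exact h3

/-- second order jet of `log det` at the identity -/
theorem logdet_jet2 {A : ℝ → Mat n} {X Y : Mat n}
    (hs : ∀ᶠ t in 𝓝 (0 : ℝ), (A t)ᵀ = A t)
    (hA : ∀ i j, J2 (𝓝 0) (fun t => A t i j) ((1 : Mat n) i j) (X i j) (Y i j)) :
    J2 (𝓝 0) (fun t => Real.log (A t).det) 0 X.trace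
      (Y.trace - 1 / 2 * ∑ i, ∑ j, X i j * X j i) := by
  have hpd : ∀ᶠ t in 𝓝 (0 : ℝ), (A t).PosDef :=
    posDef_ev hs fun i j => (hA i j).tendsto le_rfl
  have h1H : (1 : Mat n).IsHermitian := Matrix.isHermitian_one
  have hfr : ∀ᶠ t in 𝓝 (0 : ℝ), (A t)ᵀ = A t ∧ ∃ M β, L.Fr (A t) 1 M β := by
    filter_upwards [hs, hpd] with t h1 h2
    exact ⟨h1, L.exists_Fr h2 h1H⟩
  have h0 : L.Fr (1 : Mat n) 1 1 (fun _ => 1) := by
    constructor
    · rw [Matrix.mul_one, Matrix.transpose_one, Matrix.mul_one]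
    · rw [Matrix.transpose_one, Matrix.one_mul, Matrix.mul_one, Matrix.diagonal_one]
  have h := Z546.phi_jet2 (f := Real.log) (f1 := fun x => x⁻¹) (f2 := fun x => -(x ^ 2)⁻¹) h0
    (Matrix.transpose_one) hA hfr
    (fun _ => by
      filter_upwards [lt_mem_nhds (show (0 : ℝ) < 1 by norm_num)] with x hx
      exact Real.hasDerivAt_log hx.ne')
    (fun _ => hasDerivAt_inv one_ne_zero)
  refine h.congr ?_ ?_ ?_ ?_
  · filter_upwards [hfr, hpd] with t h1 h2
    obtain ⟨-, M, β, hM⟩ := h1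
    rw [L.Phi_eq hM]
    have e1 := hM.det_A
    have e2 := hM.det_B
    rw [Matrix.det_one] at e2
    have hβ : ∀ i, 0 < β i := by
      have h3 : (1 : Mat n).PosDef := Matrix.PosDef.one
      rw [hM.hB, L.posDef_conj_iff hM.isUnit, Matrix.posDef_diagonal_iff] at h3
      exact h3
    have e3 : (A t).det = ∏ i, β i := by
      have h4 : M.det ^ 2 ≠ 0 := fun h => by rw [h, zero_mul] at e1; exact zero_ne_one e1
      have h5 : M.det ^ 2 * (A t).det = M.det ^ 2 * ∏ i, β i := by rw [e1, ← e2]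
      exact mul_left_cancel₀ h4 h5
    rw [e3, Real.log_prod]
    exact fun i _ => (hβ i).ne'
  · simp
  · simp only [Matrix.one_mul, Matrix.transpose_one, Matrix.mul_one, inv_one, one_mul]
    rfl
  · simp only [Matrix.one_mul, Matrix.transpose_one, Matrix.mul_one, inv_one, one_mul, L.dd1,
      if_true, one_pow]
    rw [Matrix.trace, sub_eq_add_neg]
    congr 1
    rw [← mul_neg]
    congr 1
    rw [← Finset.sum_neg_distrib]
    refine Finset.sum_congr rfl fun i _ => ?_
    rw [← Finset.sum_neg_distrib]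
    exact Finset.sum_congr rfl fun j _ => by ring

/-- products of matrix jets -/
theorem J2_mul {l : Filter ℝ} (hl : l ≤ 𝓝 0) {A B : ℝ → Mat n} {A0 A1 A2 B0 B1 B2 : Mat n}
    (hA : ∀ i j, J2 l (fun t => A t i j) (A0 i j) (A1 i j) (A2 i j))
    (hB : ∀ i j, J2 l (fun t => B t i j) (B0 i j) (B1 i j) (B2 i j)) (i j : Fin n) :
    J2 l (fun t => (A t * B t) i j) ((A0 * B0) i j) ((A0 * B1 + A1 * B0) i j)
      ((A0 * B2 + A1 * B1 + A2 * B0) i j) := by
  have h := J2.sum Finset.univ fun k (_ : k ∈ Finset.univ) => (hA i k).mul hl (hB k j)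
  refine h.congr (Eventually.of_forall fun t => (Matrix.mul_apply).symm) ?_ ?_ ?_
  · rw [Matrix.mul_apply]
  · simp only [Matrix.add_apply, Matrix.mul_apply, Finset.sum_add_distrib]
  · simp only [Matrix.add_apply, Matrix.mul_apply, Finset.sum_add_distrib]

theorem J1_mul {l : Filter ℝ} (hl : l ≤ 𝓝 0) {A B : ℝ → Mat n} {A0 A1 B0 B1 : Mat n}
    (hA : ∀ i j, J1 l (fun t => A t i j) (A0 i j) (A1 i j))
    (hB : ∀ i j, J1 l (fun t => B t i j) (B0 i j) (B1 i j)) (i j : Fin n) :
    J1 l (fun t => (A t * B t) i j) ((A0 * B0) i j) ((A0 * B1 + A1 * B0) i j) := by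
  have h := J1.sum Finset.univ fun k (_ : k ∈ Finset.univ) => (hA i k).mul hl (hB k j)
  refine h.congr (Eventually.of_forall fun t => (Matrix.mul_apply).symm) ?_ ?_
  · rw [Matrix.mul_apply]
  · simp only [Matrix.add_apply, Matrix.mul_apply, Finset.sum_add_distrib]

theorem J2_trace {l : Filter ℝ} {A : ℝ → Mat n} {A0 A1 A2 : Mat n}
    (hA : ∀ i j, J2 l (fun t => A t i j) (A0 i j) (A1 i j) (A2 i j)) :
    J2 l (fun t => (A t).trace) A0.trace A1.trace A2.trace :=
  J2.sum Finset.univ fun i _ => hA i i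

theorem J1_trace {l : Filter ℝ} {A : ℝ → Mat n} {A0 A1 : Mat n}
    (hA : ∀ i j, J1 l (fun t => A t i j) (A0 i j) (A1 i j)) :
    J1 l (fun t => (A t).trace) A0.trace A1.trace :=
  J1.sum Finset.univ fun i _ => hA i i

/-- cube at the identity -/
theorem J2_cube {l : Filter ℝ} (hl : l ≤ 𝓝 0) {M : ℝ → Mat n} {X Y : Mat n}
    (hM : ∀ i j, J2 l (fun t => M t i j) ((1 : Mat n) i j) (X i j) (Y i j)) :
    J2 l (fun t => ((M t) ^ 3).trace) n (3 * X.trace) (3 * Y.trace + 3 * (X * X).trace) := by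
  have h := J2_trace (J2_mul hl (J2_mul hl hM hM) hM)
  refine h.congr (Eventually.of_forall fun t => ?_) ?_ ?_ ?_
  · show (M t * M t * M t).trace = ((M t) ^ 3).trace
    rw [pow_succ, pow_two]
  · simp
  · simp only [Matrix.one_mul, Matrix.mul_one, Matrix.trace_add]
    ring
  · simp only [Matrix.one_mul, Matrix.mul_one, Matrix.trace_add, Matrix.add_mul]
    ring

theorem J1_pow3 {l : Filter ℝ} (hl : l ≤ 𝓝 0) {M : ℝ → Mat n} {X : Mat n}
    (hM : ∀ i j, J1 l (fun t => M t i j) ((1 : Mat n) i j) (X i j)) :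
    J1 l (fun t => ((M t) ^ 3).trace) n (3 * X.trace) := by
  have h := J1_trace (J1_mul hl (J1_mul hl hM hM) hM)
  refine h.congr (Eventually.of_forall fun t => ?_) ?_ ?_
  · show (M t * M t * M t).trace = ((M t) ^ 3).trace
    rw [pow_succ, pow_two]
  · simp
  · simp only [Matrix.one_mul, Matrix.mul_one, Matrix.trace_add]
    ring

theorem J1_pow4 {l : Filter ℝ} (hl : l ≤ 𝓝 0) {M : ℝ → Mat n} {X : Mat n}
    (hM : ∀ i j, J1 l (fun t => M t i j) ((1 : Mat n) i j) (X i j)) :
    J1 l (fun t => ((M t) ^ 4).trace) n (4 * X.trace) := by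
  have h := J1_trace (J1_mul hl (J1_mul hl (J1_mul hl hM hM) hM) hM)
  refine h.congr (Eventually.of_forall fun t => ?_) ?_ ?_
  · show (M t * M t * M t * M t).trace = ((M t) ^ 4).trace
    rw [pow_succ, pow_succ, pow_two]
  · simp
  · simp only [Matrix.one_mul, Matrix.mul_one, Matrix.trace_add]
    ring

end Vale.Agent.P254.EQ
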