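import Vale.Agent.P254.EQ.Jet5a

/-!
P254 / P248, equality case (helper953), block B5: jets of the cubic form of the third cumulant.
-/

open Filter Topology Matrix Asymptotics Set

namespace Vale.Agent.P254.EQ

open Vale.Agent.P254.L (Vec Mat Ten TSymm J1 J2 N3 NN)

variable {n : ℕ}

theorem N3_one (U V : Ten n) : N3 1 1 1 U V = ∑ i, ∑ j, ∑ k, U i j k * V i j k := by
  unfold N3
  refine Finset.sum_congr rfl fun a _ => Finset.sum_congr rfl fun b _ =>
    Finset.sum_congr rfl fun c _ => ?_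
  rw [Finset.sum_eq_single a, Finset.sum_eq_single b, Finset.sum_eq_single c]
  · simp
  · intro d _ hd; rw [Matrix.one_apply_ne (Ne.symm hd)]; ring
  · intro h; exact absurd (Finset.mem_univ _) h
  · intro d _ hd; rw [Matrix.one_apply_ne (Ne.symm hd)]; simp
  · intro h; exact absurd (Finset.mem_univ _) h
  · intro d _ hd; rw [Matrix.one_apply_ne (Ne.symm hd)]; simp
  · intro h; exact absurd (Finset.mem_univ _) h

theorem N3_X1 (X : Mat n) (U V : Ten n) :
    N3 X 1 1 U V = ∑ a, ∑ b, ∑ c, ∑ a', X a a' * U a b c * V a' b c := by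
  unfold N3
  refine Finset.sum_congr rfl fun a _ => Finset.sum_congr rfl fun b _ =>
    Finset.sum_congr rfl fun c _ => Finset.sum_congr rfl fun a' _ => ?_
  rw [Finset.sum_eq_single b, Finset.sum_eq_single c]
  · simp
  · intro d _ hd; rw [Matrix.one_apply_ne (Ne.symm hd)]; ring
  · intro h; exact absurd (Finset.mem_univ _) h
  · intro d _ hd; rw [Matrix.one_apply_ne (Ne.symm hd)]; simp
  · intro h; exact absurd (Finset.mem_univ _) h

theorem N3_XX1 (X Y : Mat n) (U V : Ten n) :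
    N3 X Y 1 U V = ∑ a, ∑ b, ∑ c, ∑ a', ∑ b', X a a' * Y b b' * U a b c * V a' b' c := by
  unfold N3
  refine Finset.sum_congr rfl fun a _ => Finset.sum_congr rfl fun b _ =>
    Finset.sum_congr rfl fun c _ => Finset.sum_congr rfl fun a' _ =>
    Finset.sum_congr rfl fun b' _ => ?_
  rw [Finset.sum_eq_single c]
  · simp
  · intro d _ hd; rw [Matrix.one_apply_ne (Ne.symm hd)]; ring
  · intro h; exact absurd (Finset.mem_univ _) h

/-- jets of `N3` with constant matrices -/
theorem J2_N3 {l : Filter ℝ} (hl : l ≤ 𝓝 0) (X Y Z : Mat n) {U : ℝ → Ten n} {U0 U1 U2 : Ten n}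
    (hU : ∀ i j k, J2 l (fun t => U t i j k) (U0 i j k) (U1 i j k) (U2 i j k)) :
    J2 l (fun t => N3 X Y Z (U t) (U t)) (N3 X Y Z U0 U0) (N3 X Y Z U0 U1 + N3 X Y Z U1 U0)
      (N3 X Y Z U0 U2 + N3 X Y Z U1 U1 + N3 X Y Z U2 U0) := by
  have h := J2.sum Finset.univ fun a (_ : a ∈ Finset.univ) =>
    J2.sum Finset.univ fun b (_ : b ∈ Finset.univ) =>
    J2.sum Finset.univ fun c (_ : c ∈ Finset.univ) =>
    J2.sum Finset.univ fun a' (_ : a' ∈ Finset.univ) =>
    J2.sum Finset.univ fun b' (_ : b' ∈ Finset.univ) =>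
    J2.sum Finset.univ fun c' (_ : c' ∈ Finset.univ) =>
      ((hU a b c).mul hl (hU a' b' c')).const_mul (X a a' * Y b b' * Z c c')
  refine h.congr (Eventually.of_forall fun t => ?_) ?_ ?_ ?_
  · unfold N3
    refine Finset.sum_congr rfl fun a _ => Finset.sum_congr rfl fun b _ =>
      Finset.sum_congr rfl fun c _ => Finset.sum_congr rfl fun a' _ =>
      Finset.sum_congr rfl fun b' _ => Finset.sum_congr rfl fun c' _ => ?_
    ring
  · unfold N3
    refine Finset.sum_congr rfl fun a _ => Finset.sum_congr rfl fun b _ =>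
      Finset.sum_congr rfl fun c _ => Finset.sum_congr rfl fun a' _ =>
      Finset.sum_congr rfl fun b' _ => Finset.sum_congr rfl fun c' _ => ?_
    ring
  · unfold N3
    simp only [← Finset.sum_add_distrib]
    refine Finset.sum_congr rfl fun a _ => Finset.sum_congr rfl fun b _ =>
      Finset.sum_congr rfl fun c _ => Finset.sum_congr rfl fun a' _ =>
      Finset.sum_congr rfl fun b' _ => Finset.sum_congr rfl fun c' _ => ?_
    ring
  · unfold N3
    simp only [← Finset.sum_add_distrib]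
    refine Finset.sum_congr rfl fun a _ => Finset.sum_congr rfl fun b _ =>
      Finset.sum_congr rfl fun c _ => Finset.sum_congr rfl fun a' _ =>
      Finset.sum_congr rfl fun b' _ => Finset.sum_congr rfl fun c' _ => ?_
    ring

/-- jet of `NN (1 + t X) (U t) (U t)` -/
theorem J2_NN {l : Filter ℝ} (hl : l ≤ 𝓝 0) (X : Mat n) {U : ℝ → Ten n} {U0 U1 U2 : Ten n}
    (hs : ∀ t, TSymm (U t))
    (hU : ∀ i j k, J2 l (fun t => U t i j k) (U0 i j k) (U1 i j k) (U2 i j k)) :
    J2 l (fun t => NN (1 + t • X) (U t) (U t)) (N3 1 1 1 U0 U0)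
      (N3 1 1 1 U0 U1 + N3 1 1 1 U1 U0 + 3 * N3 X 1 1 U0 U0)
      (N3 1 1 1 U0 U2 + N3 1 1 1 U1 U1 + N3 1 1 1 U2 U0
        + 3 * (N3 X 1 1 U0 U1 + N3 X 1 1 U1 U0) + 3 * N3 X X 1 U0 U0) := by
  have j1 := J2_N3 hl 1 1 1 hU
  have j2 := J2.mul hl (J2.id (l := l)) ((J2_N3 hl X 1 1 hU).const_mul 3)
  have j3 := J2.mul hl (J2.mul hl (J2.id (l := l)) (J2.id (l := l)))
    ((J2_N3 hl X X 1 hU).const_mul 3)
  have j4 := J2.mul hl (J2.mul hl (J2.mul hl (J2.id (l := l)) (J2.id (l := l)))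
    (J2.id (l := l))) (J2_N3 hl X X X hU)
  refine ((((j1.add j2).add j3).add j4)).congr (Eventually.of_forall fun t => ?_) ?_ ?_ ?_
  · show _ = NN (1 + t • X) (U t) (U t)
    rw [MP.contactP_NN_line 1 X (hs t) t]
    show N3 1 1 1 (U t) (U t) + t * (3 * N3 X 1 1 (U t) (U t))
      + t * t * (3 * N3 X X 1 (U t) (U t)) + t * t * t * N3 X X X (U t) (U t)
      = N3 1 1 1 (U t) (U t) + _ + _ + _
    ring
  · ring
  · ring
  · ring

theorem N3_X1_MM (X : Mat n) (U : Ten n) : N3 X 1 1 U U = ∑ a, ∑ b, X a b * MM U a b := by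
  rw [N3_X1]
  refine Finset.sum_congr rfl fun a _ => ?_
  have e : ∀ b, ∑ c, ∑ a', X a a' * U a b c * U a' b c = ∑ a', ∑ c, X a a' * U a b c * U a' b c :=
    fun b => Finset.sum_comm
  simp only [e]
  rw [Finset.sum_comm]
  refine Finset.sum_congr rfl fun a' _ => ?_
  unfold MM
  rw [Finset.mul_sum]
  refine Finset.sum_congr rfl fun b _ => ?_
  rw [Finset.mul_sum]
  exact Finset.sum_congr rfl fun c _ => by ring

/-- symmetric in the two tensors if `X` is symmetric -/
theorem N3_X1_symm {X : Mat n} (hX : Xᵀ = X) (U V : Ten n) : N3 X 1 1 U V = N3 X 1 1 V U := by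
  have hx : ∀ a b, X a b = X b a := fun a b => by
    conv_lhs => rw [← hX]
    rfl
  have r : ∀ U V : Ten n, N3 X 1 1 U V = ∑ a, ∑ a', ∑ b, ∑ c, X a a' * U a b c * V a' b c := by
    intro U V
    rw [N3_X1]
    refine Finset.sum_congr rfl fun a _ => ?_
    have e : ∀ b, ∑ c, ∑ a', X a a' * U a b c * V a' b c
        = ∑ a', ∑ c, X a a' * U a b c * V a' b c := fun b => Finset.sum_comm
    simp only [e]
    rw [Finset.sum_comm]
  rw [r, r, Finset.sum_comm]
  refine Finset.sum_congr rfl fun a _ => Finset.sum_congr rfl fun a' _ =>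
    Finset.sum_congr rfl fun b _ => Finset.sum_congr rfl fun c _ => ?_
  rw [hx a' a]
  ring

/-- the sum over `a` of `N3 T_a 1 1 K_a T` -/
theorem sum_N3_S1 {T : Ten n} (hT : TSymm T) {K : Fin n → Ten n} :
    ∑ a, N3 (slc T a) 1 1 (K a) T = S1 K T := by
  unfold S1
  refine Finset.sum_congr rfl fun a _ => ?_
  rw [N3_X1]
  refine Finset.sum_congr rfl fun i _ => Finset.sum_congr rfl fun j _ =>
    Finset.sum_congr rfl fun k _ => ?_
  unfold PC slc
  rw [Finset.mul_sum]
  refine Finset.sum_congr rfl fun l _ => ?_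
  simp only [of_apply]
  ring

theorem sum_N3_c4 {T : Ten n} (hT : TSymm T) :
    ∑ a, N3 (slc T a) (slc T a) 1 T T = c4t T := by
  rw [← sum_PC_cross hT]
  refine Finset.sum_congr rfl fun a _ => ?_
  rw [N3_XX1]
  -- sum over `i j k i' j'` of `T_aii' T_ajj' T_ijk T_i'j'k`
  have e1 : ∀ i j k, ∑ i', ∑ j', slc T a i i' * slc T a j j' * T i j k * T i' j' k
      = ∑ i', slc T a i i' * T i j k * PC T a j i' k := by
    intro i j k
    refine Finset.sum_congr rfl fun i' _ => ?_
    unfold PC slc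
    rw [Finset.mul_sum]
    refine Finset.sum_congr rfl fun j' _ => ?_
    simp only [of_apply]
    rw [hT.1 i' j' k]
    ring
  simp only [e1]
  calc ∑ i, ∑ j, ∑ k, ∑ i', slc T a i i' * T i j k * PC T a j i' k
      = ∑ j, ∑ i, ∑ k, ∑ i', slc T a i i' * T i j k * PC T a j i' k := Finset.sum_comm
    _ = ∑ j, ∑ i, ∑ i', ∑ k, slc T a i i' * T i j k * PC T a j i' k :=
        Finset.sum_congr rfl fun j _ => Finset.sum_congr rfl fun i _ => Finset.sum_comm
    _ = ∑ j, ∑ i', ∑ i, ∑ k, slc T a i i' * T i j k * PC T a j i' k :=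
        Finset.sum_congr rfl fun j _ => Finset.sum_comm
    _ = ∑ j, ∑ i', ∑ k, ∑ i, slc T a i i' * T i j k * PC T a j i' k :=
        Finset.sum_congr rfl fun j _ => Finset.sum_congr rfl fun i' _ => Finset.sum_comm
    _ = ∑ j, ∑ i', ∑ k, PC T a i' j k * PC T a j i' k := by
        refine Finset.sum_congr rfl fun j _ => Finset.sum_congr rfl fun i' _ =>
          Finset.sum_congr rfl fun k _ => ?_
        rw [← Finset.sum_mul]
        congr 1
        unfold PC slc
        refine Finset.sum_congr rfl fun i _ => ?_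
        simp only [of_apply]
        rw [hT.2 a i i']
    _ = ∑ i', ∑ j, ∑ k, PC T a i' j k * PC T a j i' k := Finset.sum_comm

end Vale.Agent.P254.EQ
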