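import Vale.Agent.P254.EQ.Jet5b
import Vale.Agent.P254.EQ.Hom

/-!
P254 / P248, equality case (helper953), block B5: jets of the cumulants of the weight along `t e_a`
and along `s 1`.
-/

open MeasureTheory Filter Topology Matrix Asymptotics Set

namespace Vale.Agent.P254.EQ

open Vale.Agent.P254.L (Vec Mat Ten TSymm J1 J2 N3 NN)
open Vale.Agent.P254.Fr (E Mt Pg tl pt I Ev c2 c3 c4 c5 co pg_co muF AF TF KF RF Lin)

variable {n : ℕ} {w : E n → ℝ} {r C : ℝ} {y : E n}

/-- basis vector -/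
def ei (a : Fin n) : E n := Pi.single a 1

theorem ei_dot (a : Fin n) : (fun x : E n => ei a ⬝ᵥ x) = co a := by
  funext x
  unfold ei Fr.co
  rw [single_dotProduct, one_mul]

/-! ### along `t e_a` -/

theorem jI (hw : CW w r C) (a : Fin n) :
    J2 (𝓝 0) (fun t => Real.log (I w 0 (t • ei a) (fun _ => 1)))
      (Real.log (I w 0 0 (fun _ => 1))) (muF w 0 0 a) (AF w 0 0 a a / 2) := by
  have h1 : ∀ᶠ t in 𝓝 (0 : ℝ), HasDerivAt (fun t => Real.log (I w 0 (t • ei a) (fun _ => 1)))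
      (Ev w 0 (t • ei a) (co a)) t := by
    filter_upwards [small hw.a_pos (ei a)] with t ht
    have h := (dI1 hw (ei a) (Pg.const (n := n) 1) ht).log
      (I_one_pos hw ⟨zero_quad, ht.le⟩).ne'
    simp only [one_mul] at h
    rw [ei_dot] at h
    exact h
  have h0 : n1 ((0 : ℝ) • ei a) < r / 2 := by
    rw [zero_smul]; unfold n1; simp; linarith [hw.a_pos]
  have h2 := dE1 hw (ei a) (pg_co a) h0
  rw [ei_dot] at h2
  have h3 := J2.of_hasDerivAt h1 h2
  simp only [zero_smul] at h3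
  exact h3

theorem jA (hw : CW w r C) (a i j : Fin n) :
    J2 (𝓝 0) (fun t => AF w 0 (t • ei a) i j) (AF w 0 0 i j) (TF w 0 0 i j a)
      (KF w 0 0 i j a a / 2) := by
  have h1 : ∀ᶠ t in 𝓝 (0 : ℝ), HasDerivAt (fun t => AF w 0 (t • ei a) i j)
      (TF w 0 (t • ei a) i j a) t := by
    filter_upwards [small hw.a_pos (ei a)] with t ht
    have h := dE2 hw (ei a) (pg_co i) (pg_co j) ht
    rw [ei_dot] at h
    exact h
  have h0 : n1 ((0 : ℝ) • ei a) < r / 2 := by
    rw [zero_smul]; unfold n1; simp; linarith [hw.a_pos]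
  have h2 := dE3 hw (ei a) (pg_co i) (pg_co j) (pg_co a) h0
  rw [ei_dot] at h2
  have h3 := J2.of_hasDerivAt h1 h2
  simp only [zero_smul] at h3
  exact h3

theorem jT (hw : CW w r C) (a i j k : Fin n) :
    J2 (𝓝 0) (fun t => TF w 0 (t • ei a) i j k) (TF w 0 0 i j k) (KF w 0 0 i j k a)
      (RF w 0 0 i j k a a / 2) := by
  have h1 : ∀ᶠ t in 𝓝 (0 : ℝ), HasDerivAt (fun t => TF w 0 (t • ei a) i j k)
      (KF w 0 (t • ei a) i j k a) t := by
    filter_upwards [small hw.a_pos (ei a)] with t ht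
    have h := dE3 hw (ei a) (pg_co i) (pg_co j) (pg_co k) ht
    rw [ei_dot] at h
    exact h
  have h0 : n1 ((0 : ℝ) • ei a) < r / 2 := by
    rw [zero_smul]; unfold n1; simp; linarith [hw.a_pos]
  have h2 := dE4 hw (ei a) (pg_co i) (pg_co j) (pg_co k) (pg_co a) h0
  rw [ei_dot] at h2
  have h3 := J2.of_hasDerivAt h1 h2
  simp only [zero_smul] at h3
  exact h3

/-! ### along `s 1` -/

/-- `½ |x|²` with a minus sign -/
theorem pt_one : pt (1 : Mt n) 0 = fun x => -(1 / 2) * (x ⬝ᵥ x) := by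
  funext x
  unfold pt
  rw [zero_dotProduct, Matrix.one_mulVec]
  ring

theorem lin_pt_one {L : (E n → ℝ) → ℝ} (hL : Lin L) :
    L (pt (1 : Mt n) 0) = -(1 / 2) * ∑ k, L (fun x => co k x * co k x) := by
  rw [hL.ptv]
  simp only [Pi.zero_apply, zero_mul, Finset.sum_const_zero]
  rw [zero_sub, neg_mul]
  congr 2
  refine Finset.sum_congr rfl fun k _ => ?_
  rw [Finset.sum_eq_single k]
  · rw [Matrix.one_apply_eq, one_mul]
    rfl
  · intro l _ hl; rw [Matrix.one_apply_ne (Ne.symm hl), zero_mul]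
  · intro h; exact absurd (Finset.mem_univ _) h

theorem side_one : Side (1 : Mt n) (Ici 0) := side_psd Matrix.PosSemidef.one

theorem base_c (hr : 0 < r) : n1 (0 : E n) < r / 2 := by
  unfold n1; simp; linarith

theorem path_s (s : ℝ) : (0 : Mt n) + s • (1 : Mt n) = s • 1 := zero_add _

theorem path_c (s : ℝ) : (0 : E n) + s • (0 : E n) = 0 := by rw [smul_zero, add_zero]

theorem sd1 (hw : CW w r C) {f : E n → ℝ} (hf : Pg f) :
    HasDerivWithinAt (fun s : ℝ => Ev w (s • 1) 0 f)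
      (-(1 / 2) * ∑ k, c2 w 0 0 f (fun x => co k x * co k x)) (Ici 0) 0 := by
  have h := d1 hw zero_quad (base_c hw.a_pos) side_one 0 hf
  rw [lin_pt_one (lin_c2 hw (ad_zero hw.a_pos) hf)] at h
  simpa only [path_s, path_c] using h

theorem sd2 (hw : CW w r C) {f g : E n → ℝ} (hf : Pg f) (hg : Pg g) :
    HasDerivWithinAt (fun s : ℝ => c2 w (s • 1) 0 f g)
      (-(1 / 2) * ∑ k, c3 w 0 0 f g (fun x => co k x * co k x)) (Ici 0) 0 := by
  have h := d2 hw zero_quad (base_c hw.a_pos) side_one 0 hf hg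
  rw [lin_pt_one (lin_c3 hw (ad_zero hw.a_pos) hf hg)] at h
  simpa only [path_s, path_c] using h

theorem sd3 (hw : CW w r C) {f g k : E n → ℝ} (hf : Pg f) (hg : Pg g) (hk : Pg k) :
    HasDerivWithinAt (fun s : ℝ => c3 w (s • 1) 0 f g k)
      (-(1 / 2) * ∑ l, c4 w 0 0 f g k (fun x => co l x * co l x)) (Ici 0) 0 := by
  have h := d3 hw zero_quad (base_c hw.a_pos) side_one 0 hf hg hk
  rw [lin_pt_one (lin_c4 hw (ad_zero hw.a_pos) hf hg hk)] at h
  simpa only [path_s, path_c] using h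

theorem sdI (hw : CW w r C) :
    HasDerivWithinAt (fun s : ℝ => Real.log (I w (s • 1) 0 (fun _ => 1)))
      (-(1 / 2) * ∑ k, Ev w 0 0 (fun x => co k x * co k x)) (Ici 0) 0 := by
  have h := hasDerivWithinAt_I hw zero_quad (base_c hw.a_pos) side_one 0 (Pg.const (n := n) 1)
  have h2 := h.log (by
    rw [path_s, path_c, zero_smul]
    exact (I_one_pos hw (ad_zero hw.a_pos)).ne')
  have e : I w 0 0 (fun x => 1 * pt 1 0 x) / I w (0 + (0 : ℝ) • 1) (0 + (0 : ℝ) • 0) (fun _ => 1)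
      = -(1 / 2) * ∑ k, Ev w 0 0 (fun x => co k x * co k x) := by
    rw [path_s, path_c, zero_smul, ← lin_pt_one (lin_Ev hw (ad_zero hw.a_pos))]
    simp only [one_mul]
    rfl
  rw [e] at h2
  simpa only [path_s, path_c] using h2

/-! ### normalised weights -/

/-- normalised homogeneous weight -/
structure Nrm (w : E n → ℝ) (y : E n) (r C : ℝ) : Prop where
  cw : CW w r C
  hom : HomW w y
  one : AF w 0 0 = 1

namespace Nrm

variable (h : Nrm w y r C)
include h

theorem mu_eq : muF w 0 0 = y := by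
  funext i
  rw [← h.hom.A h.cw i, h.one]
  simp [Matrix.one_apply]

theorem y_sq : ∑ k, y k * y k = n := by
  have h1 := h.hom.mu h.cw
  rw [h.mu_eq] at h1
  exact h1

theorem yT (i j : Fin n) : ∑ k, y k * TF w 0 0 i j k = 2 * (1 : Mat n) i j := by
  rw [h.hom.T h.cw i j, h.one]

theorem yK (i j k : Fin n) : ∑ l, y l * KF w 0 0 i j k l = 3 * TF w 0 0 i j k :=
  h.hom.K h.cw i j k

theorem Ev_co (k : Fin n) : Ev w 0 0 (co k) = y k := by
  rw [← h.mu_eq]; rfl

theorem c2_co (i j : Fin n) : c2 w 0 0 (co i) (co j) = (1 : Mat n) i j := by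
  rw [← h.one]; rfl

/-- the second moment -/
theorem sum_sq : ∑ k, Ev w 0 0 (fun x => co k x * co k x) = 2 * n := by
  have e : ∀ k, Ev w 0 0 (fun x => co k x * co k x) = 1 + y k * y k := by
    intro k
    rw [Fr.Ev_prod, h.c2_co, h.Ev_co, Matrix.one_apply_eq]
  simp only [e, Finset.sum_add_distrib]
  rw [h.y_sq]
  simp
  ring

theorem sA (i j : Fin n) : HasDerivWithinAt (fun s : ℝ => AF w (s • 1) 0 i j)
    (-(1 / 2) * ∑ k, KF w 0 0 i j k k - 3 * (1 : Mat n) i j) (Ici 0) 0 := by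
  have h1 := sd2 h.cw (pg_co i) (pg_co j)
  have e : ∀ k, c3 w 0 0 (co i) (co j) (fun x => co k x * co k x)
      = KF w 0 0 i j k k + 2 * ((1 : Mat n) i k * (1 : Mat n) j k) + 2 * (y k * TF w 0 0 i j k) := by
    intro k
    rw [Fr.c3_prod, h.c2_co, h.c2_co, h.Ev_co]
    show KF w 0 0 i j k k + _ + _ + y k * TF w 0 0 i j k + y k * TF w 0 0 i j k = _
    ring
  have e2 : ∑ k, (1 : Mat n) i k * (1 : Mat n) j k = (1 : Mat n) i j := by
    have : ((1 : Mat n) * (1 : Mat n)ᵀ) i j = (1 : Mat n) i j := by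
      rw [Matrix.transpose_one, Matrix.one_mul]
    rw [Matrix.mul_apply] at this
    exact this
  simp only [e, Finset.sum_add_distrib, ← Finset.mul_sum, h.yT, e2] at h1
  refine (show HasDerivWithinAt _ _ _ _ from h1).congr_deriv ?_
  ring

theorem sT (i j k : Fin n) : HasDerivWithinAt (fun s : ℝ => TF w (s • 1) 0 i j k)
    (-(1 / 2) * ∑ l, RF w 0 0 i j k l l - 6 * TF w 0 0 i j k) (Ici 0) 0 := by
  have h1 := sd3 h.cw (pg_co i) (pg_co j) (pg_co k)
  have e : ∀ l, c4 w 0 0 (co i) (co j) (co k) (fun x => co l x * co l x)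
      = RF w 0 0 i j k l l + 2 * ((1 : Mat n) i l * TF w 0 0 j k l)
        + 2 * ((1 : Mat n) j l * TF w 0 0 i k l) + 2 * ((1 : Mat n) k l * TF w 0 0 i j l)
        + 2 * (y l * KF w 0 0 i j k l) := by
    intro l
    rw [Fr.c4_prod, h.c2_co, h.c2_co, h.c2_co, h.Ev_co]
    show RF w 0 0 i j k l l + (_ * TF w 0 0 j k l + _ * TF w 0 0 j k l)
      + (_ * TF w 0 0 i k l + _ * TF w 0 0 i k l) + (_ * TF w 0 0 i j l + _ * TF w 0 0 i j l)
      + y l * KF w 0 0 i j k l + y l * KF w 0 0 i j k l = _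
    ring
  have e2 : ∀ (i : Fin n) (f : Fin n → ℝ), ∑ l, (1 : Mat n) i l * f l = f i := by
    intro i f
    simp [Matrix.one_apply]
  simp only [e, Finset.sum_add_distrib, ← Finset.mul_sum, h.yK, e2] at h1
  refine (show HasDerivWithinAt _ _ _ _ from h1).congr_deriv ?_
  have e3 : TF w 0 0 j k i = TF w 0 0 i j k := by
    rw [Fr.TF_symm2, Fr.TF_symm1, Fr.TF_symm2]

  have e4 : TF w 0 0 i k j = TF w 0 0 i j k := Fr.TF_symm2 _ _ _ _ _ _
  rw [e3, e4]
  ring

end Nrm

end Vale.Agent.P254.EQ
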