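import Vale.Agent.P254.EQ.Final5
import Vale.Agent.P248.H551.Iso
import Vale.Agent.P254.MP.Final

/-!
P254 / P248 (helper953): the statement `StX oneProfile` (inequality (P) for the true profile) gives
the full answer to Q2 of P248 and the full statement of P254, with the cases of equality.
-/

open MeasureTheory Filter Topology Matrix Set

namespace Vale.Agent.P254.EQ

open Vale.Agent.P254.L (Profile WProfile StX)
open Vale.Agent.P248.NS (Z CC cov)
open Vale.Agent.P248.H551 (Sharp EqSharp)

theorem sharp_of_stX {F : Profile} (W : WProfile F) (hX : StX F) : Sharp := by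
  intro N C hC y hy
  have hent := Vale.Agent.P248.NS.T2.entF_eq hC hy
  have hZ := Vale.Agent.P248.NS.T2.Z_pos hC hy
  have hd := (Vale.Agent.P248.NS.T8.cov_posDef hC hy).det_pos
  obtain ⟨a, ha, h⟩ := hy
  have h1 := Vale.Agent.P248.H551.D_cone_nonneg W hX (C := C) (c₀ := -y) (c := 0)
    Matrix.PosSemidef.zero hC.closed hC.conv hC.int (b := 0) ha
    (fun z hz => by rw [add_zero, neg_dotProduct]; have := h z hz; linarith)
  rw [add_zero] at h1
  unfold R304.DD at h1
  rw [hent] at h1
  rw [← Real.log_le_log_iff hd (by positivity), Real.log_pow]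
  have e : (cov C y) = R304.covF (R304.limDens 0 (-y) C) := rfl
  rw [e]
  push_cast
  linarith

theorem eqSharp_one (hX : StX One.oneProfile) : EqSharp :=
  eqSharp_of_stX One.oneW hX Vale.Agent.P248.H551.pf_prof0 Vale.Agent.P248.H551.wf_w0
    (sharp_of_stX One.oneW hX)

/-- P248, Q2, with equality, from (P) -/
theorem p248_of_stX (hX : StX One.oneProfile) {n : ℕ} {K : Set (EuclideanSpace ℝ (Fin n))}
    (hK : Vale.Agent.P248.IsConvexBody K) :
    ENNReal.ofReal (((n : ℝ) + 1) ^ (n + 1) / (n.factorial : ℝ) ^ 2)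
        ≤ Vale.Agent.P248.volumeProduct K ∧
      (Vale.Agent.P248.volumeProduct K
          = ENNReal.ofReal (((n : ℝ) + 1) ^ (n + 1) / (n.factorial : ℝ) ^ 2) ↔
        Vale.Agent.P248.IsSimplex K) :=
  Vale.Agent.P248.H551.full_of (sharp_of_stX One.oneW hX) (eqSharp_one hX) hK

/-- P254, with equality, from (P) -/
theorem p254_of_stX (hX : StX One.oneProfile) {n : ℕ} (hn : 1 ≤ n) {K S : Set (Fin n → ℝ)}
    (hK : Vale.Agent.P254.IsConvexBody K) (hS : Vale.Agent.P254.IsSimplex S) :
    isoConst K ≤ isoConst S ∧ (isoConst K = isoConst S ↔ Vale.Agent.P254.IsSimplex K) :=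
  Vale.Agent.P248.H551.iso_full_of (sharp_of_stX One.oneW hX) (eqSharp_one hX) hn hK hS

end Vale.Agent.P254.EQ
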